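import Mathlib

namespace Vale.Agent.Lib.P174

/-- The exponent-sum homomorphism `G * F_n → ℤ^n`: it kills the coefficient group `G` and sends
the `j`-th unknown to the `j`-th standard basis vector. -/
def expSum (G : Type*) [Group G] (n : ℕ) :
    Monoid.Coprod G (FreeGroup (Fin n)) →* Multiplicative (Fin n → ℤ) :=
  Monoid.Coprod.lift 1 (FreeGroup.lift fun j => Multiplicative.ofAdd (Pi.single j 1))

/-- A finite system `w_1, ..., w_m` in `G * F_n` is nonsingular when the rows of its
exponent-sum matrix are linearly independent over `ℚ` (the matrix has rank `m`). -/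
def Nonsingular {G : Type*} [Group G] {n m : ℕ}
    (w : Fin m → Monoid.Coprod G (FreeGroup (Fin n))) : Prop :=
  LinearIndependent ℚ fun i : Fin m => fun j : Fin n =>
    ((Multiplicative.toAdd (expSum G n (w i)) j : ℤ) : ℚ)

/-- The system `w` is solvable over `G`: the canonical homomorphism from `G` to the quotient of
`G * F_n` by the normal closure of the `w_i` is injective. -/
def SolvableOver {G : Type*} [Group G] {n m : ℕ}
    (w : Fin m → Monoid.Coprod G (FreeGroup (Fin n))) : Prop :=
  Function.Injective
    ((QuotientGroup.mk' (Subgroup.normalClosure (Set.range w))).comp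
      (Monoid.Coprod.inl : G →* Monoid.Coprod G (FreeGroup (Fin n))))

/-- Howie's conjecture for the group `G`: every nonsingular finite system of equations over `G`
is solvable over `G`. -/
def HowieProperty (G : Type*) [Group G] : Prop :=
  ∀ (n m : ℕ) (w : Fin m → Monoid.Coprod G (FreeGroup (Fin n))), Nonsingular w → SolvableOver w

end Vale.Agent.Lib.P174
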