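import Mathlib
import Vale.Agent.Lib.P174.Defs

namespace Vale.Agent.Lib.P174

open Monoid

/-- Membership in the normal closure of a family only uses finitely many members. -/
theorem mem_normalClosure_finite {G : Type*} [Group G] {α : Type*} (u : α → G) {x : G}
    (hx : x ∈ Subgroup.normalClosure (Set.range u)) :
    ∃ s : Finset α, x ∈ Subgroup.normalClosure (u '' (s : Set α)) := by
  classical
  let K : Finset α → Subgroup G := fun s => Subgroup.normalClosure (u '' (s : Set α))
  have hdir : Directed (· ≤ ·) K := by
    intro s t
    refine ⟨s ∪ t, ?_, ?_⟩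
    · apply Subgroup.normalClosure_mono
      apply Set.image_mono
      intro a ha
      simp only [Finset.coe_union, Set.mem_union]
      exact Or.inl ha
    · apply Subgroup.normalClosure_mono
      apply Set.image_mono
      intro a ha
      simp only [Finset.coe_union, Set.mem_union]
      exact Or.inr ha
  have hnormal : (iSup K).Normal := by
    constructor
    intro y hy g
    rw [Subgroup.mem_iSup_of_directed hdir] at hy ⊢
    obtain ⟨s, hs⟩ := hy
    exact ⟨s, Subgroup.normalClosure_normal.conj_mem y hs g⟩
  have hle : Subgroup.normalClosure (Set.range u) ≤ iSup K := by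
    apply Subgroup.normalClosure_le_normal
    rintro _ ⟨a, rfl⟩
    rw [SetLike.mem_coe, Subgroup.mem_iSup_of_directed hdir]
    refine ⟨{a}, ?_⟩
    apply Subgroup.subset_normalClosure
    simp
  have := hle hx
  rwa [Subgroup.mem_iSup_of_directed hdir] at this

end Vale.Agent.Lib.P174
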