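import Mathlib
import Vale.Agent.Lib.P174.Defs
import Vale.Agent.Lib.P174.Finite

namespace Vale.Agent.Lib.P174

open Monoid

/-- Exponent-sum homomorphism for an arbitrary set `κ` of unknowns, with values in finitely
supported rational vectors. -/
noncomputable def expF (N : Type*) [Group N] (κ : Type*) :
    Monoid.Coprod N (FreeGroup κ) →* Multiplicative (κ →₀ ℚ) :=
  Monoid.Coprod.lift 1 (FreeGroup.lift fun y => Multiplicative.ofAdd (Finsupp.single y 1))

theorem expSum_retract {N : Type*} [Group N] {κ : Type*} (κ₀ : Finset κ) {k : ℕ}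
    (e : κ₀ ≃ Fin k) [DecidablePred (· ∈ κ₀)]
    (x : Monoid.Coprod N (FreeGroup κ)) (j : Fin k) :
    ((Multiplicative.toAdd (expSum N k
      (Monoid.Coprod.lift Monoid.Coprod.inl
        (Monoid.Coprod.inr.comp (FreeGroup.lift fun y =>
          if h : y ∈ κ₀ then FreeGroup.of (e ⟨y, h⟩) else 1)) x)) j : ℤ) : ℚ) =
    Multiplicative.toAdd (expF N κ x) (e.symm j).1 := by
  let r : Monoid.Coprod N (FreeGroup κ) →* Monoid.Coprod N (FreeGroup (Fin k)) :=
    Monoid.Coprod.lift Monoid.Coprod.inl
      (Monoid.Coprod.inr.comp (FreeGroup.lift fun y =>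
        if h : y ∈ κ₀ then FreeGroup.of (e ⟨y, h⟩) else 1))
  let castHom : Multiplicative (Fin k → ℤ) →* Multiplicative (Fin k → ℚ) :=
    AddMonoidHom.toMultiplicative ((Int.castAddHom ℚ).compLeft (Fin k))
  let ρ : (κ →₀ ℚ) →+ (Fin k → ℚ) :=
    AddMonoidHom.pi fun j => (Finsupp.applyAddHom (e.symm j).1)
  let h1 : Monoid.Coprod N (FreeGroup κ) →* Multiplicative (Fin k → ℚ) :=
    castHom.comp ((expSum N k).comp r)
  let h2 : Monoid.Coprod N (FreeGroup κ) →* Multiplicative (Fin k → ℚ) :=
    (AddMonoidHom.toMultiplicative ρ).comp (expF N κ)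
  have key : h1 = h2 := by
    apply Monoid.Coprod.hom_ext
    · ext g
      simp [h1, h2, r, expSum, expF]
    · apply FreeGroup.ext_hom
      intro y
      apply Multiplicative.toAdd.injective
      funext j'
      by_cases hy : y ∈ κ₀
      · simp only [h1, h2, r, expSum, expF, castHom, ρ, MonoidHom.comp_apply, Monoid.Coprod.lift_apply_inr,
          FreeGroup.lift_apply_of, dif_pos hy]
        simp only [AddMonoidHom.toMultiplicative_apply_apply, toAdd_ofAdd, AddMonoidHom.compLeft_apply,
          Function.comp_apply, Int.coe_castAddHom, AddMonoidHom.pi_apply, Finsupp.applyAddHom_apply]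
        by_cases hj : j' = e ⟨y, hy⟩
        · subst hj
          simp
        · have : (e.symm j').1 ≠ y := by
            intro h
            apply hj
            have : e.symm j' = ⟨y, hy⟩ := Subtype.ext h
            rw [← this]
            simp
          simp [hj, this.symm]
      · simp only [h1, h2, r, expSum, expF, castHom, ρ, MonoidHom.comp_apply, Monoid.Coprod.lift_apply_inr,
          FreeGroup.lift_apply_of, dif_neg hy]
        simp only [map_one, AddMonoidHom.toMultiplicative_apply_apply, toAdd_ofAdd, toAdd_one,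
          AddMonoidHom.pi_apply, Finsupp.applyAddHom_apply, Pi.zero_apply]
        have : (e.symm j').1 ≠ y := by
          intro h
          exact hy (h ▸ (e.symm j').2)
        simp [this.symm]
  have h3 : h1 x = h2 x := by rw [key]
  have h4 := congrFun (congrArg Multiplicative.toAdd h3) j
  simpa [h1, h2, castHom, ρ, r] using h4

/-- If `N` has the Howie property, then any (possibly infinite) family of relators in
`N * F(κ)` whose exponent vectors are linearly independent over `ℚ` does not kill a
nontrivial element of `N`. -/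
theorem eq_one_of_mem_normalClosure {N : Type*} [Group N] (hN : HowieProperty N)
    {κ : Type*} {α : Type*} (u : α → Monoid.Coprod N (FreeGroup κ))
    (hu : LinearIndependent ℚ fun a => Multiplicative.toAdd (expF N κ (u a)))
    (ν : N) (hν : Monoid.Coprod.inl ν ∈ Subgroup.normalClosure (Set.range u)) : ν = 1 := by
  classical
  obtain ⟨s, hs⟩ := mem_normalClosure_finite u hν
  let κ₀ : Finset κ := s.biUnion fun a => (Multiplicative.toAdd (expF N κ (u a))).support
  let k := κ₀.card
  let e : κ₀ ≃ Fin k := κ₀.equivFin
  let m := s.card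
  let e' : s ≃ Fin m := s.equivFin
  let r : Monoid.Coprod N (FreeGroup κ) →* Monoid.Coprod N (FreeGroup (Fin k)) :=
    Monoid.Coprod.lift Monoid.Coprod.inl
      (Monoid.Coprod.inr.comp (FreeGroup.lift fun y =>
        if h : y ∈ κ₀ then FreeGroup.of (e ⟨y, h⟩) else 1))
  let w : Fin m → Monoid.Coprod N (FreeGroup (Fin k)) := fun i => r (u (e'.symm i))
  have hmem : Monoid.Coprod.inl ν ∈ Subgroup.normalClosure (Set.range w) := by
    have h1 : Subgroup.normalClosure (u '' (s : Set α)) ≤
        (Subgroup.normalClosure (Set.range w)).comap r := by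
      apply Subgroup.normalClosure_le_normal
      rintro _ ⟨a, ha, rfl⟩
      rw [SetLike.mem_coe, Subgroup.mem_comap]
      apply Subgroup.subset_normalClosure
      exact ⟨e' ⟨a, ha⟩, by simp [w]⟩
    have h2 := h1 hs
    rw [Subgroup.mem_comap] at h2
    simpa [r] using h2
  have hns : Nonsingular w := by
    unfold Nonsingular
    let ρ : (κ →₀ ℚ) →ₗ[ℚ] (Fin k → ℚ) := LinearMap.pi fun j => Finsupp.lapply (e.symm j).1
    let v : Fin m → (κ →₀ ℚ) := fun i => Multiplicative.toAdd (expF N κ (u (e'.symm i)))
    have hv : LinearIndependent ℚ v := by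
      have hinj : Function.Injective fun i : Fin m => ((e'.symm i : s) : α) :=
        Subtype.val_injective.comp e'.symm.injective
      exact hu.comp _ hinj
    have hrows : (fun i : Fin m => fun j : Fin k =>
        ((Multiplicative.toAdd (expSum N k (w i)) j : ℤ) : ℚ)) = ρ ∘ v := by
      funext i j
      simp only [w, r, Function.comp_apply, ρ, v, LinearMap.pi_apply, Finsupp.lapply_apply]
      exact expSum_retract κ₀ e _ j
    rw [hrows]
    apply hv.map
    rw [Submodule.disjoint_def]
    intro x hx hx0
    have hsup : x ∈ Finsupp.supported ℚ ℚ (κ₀ : Set κ) := by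
      have hle : Submodule.span ℚ (Set.range v) ≤ Finsupp.supported ℚ ℚ (κ₀ : Set κ) := by
        rw [Submodule.span_le]
        rintro _ ⟨i, rfl⟩
        rw [SetLike.mem_coe, Finsupp.mem_supported]
        intro y hy
        simp only [Finset.mem_coe] at hy ⊢
        exact Finset.mem_biUnion.mpr ⟨(e'.symm i : s), (e'.symm i).2, hy⟩
      exact hle hx
    rw [Finsupp.mem_supported] at hsup
    rw [LinearMap.mem_ker] at hx0
    ext y
    by_cases hy : y ∈ κ₀
    · have h3 := congrFun hx0 (e ⟨y, hy⟩)
      simpa [ρ] using h3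
    · have : y ∉ x.support := fun h => hy (by simpa using hsup h)
      simpa using this
  have hsol := hN k m w hns
  have h2 : ((QuotientGroup.mk' (Subgroup.normalClosure (Set.range w))).comp
      (Monoid.Coprod.inl : N →* Monoid.Coprod N (FreeGroup (Fin k)))) ν =
      ((QuotientGroup.mk' (Subgroup.normalClosure (Set.range w))).comp
      (Monoid.Coprod.inl : N →* Monoid.Coprod N (FreeGroup (Fin k)))) 1 := by
    rw [map_one]
    exact (QuotientGroup.eq_one_iff _).mpr hmem
  exact hsol h2

end Vale.Agent.Lib.P174
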