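import Mathlib
import Vale.Agent.Lib.P174.Defs
import Vale.Agent.Lib.P174.Infinite

namespace Vale.Agent.Lib.P174

open Monoid Matrix

/-- A rational matrix with linearly independent rows has a right inverse. -/
theorem exists_right_inverse {m n : ℕ} (A : Matrix (Fin m) (Fin n) ℚ)
    (hA : LinearIndependent ℚ A.row) : ∃ B : Matrix (Fin n) (Fin m) ℚ, A * B = 1 := by
  have hinj : Function.Injective (Matrix.vecMulLinear A) := by
    have := (Matrix.vecMul_injective_iff (M := A)).mpr hA
    exact this
  obtain ⟨g, hg⟩ := LinearMap.exists_leftInverse_of_injective (Matrix.vecMulLinear A)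
    (LinearMap.ker_eq_bot.mpr hinj)
  refine ⟨(LinearMap.toMatrix' g)ᵀ, ?_⟩
  rw [Matrix.ext_iff_vecMul]
  intro x
  rw [← Matrix.vecMul_vecMul, Matrix.vecMul_transpose, Matrix.vecMul_one]
  have h1 : LinearMap.toMatrix' g *ᵥ (x ᵥ* A) = g (x ᵥ* A) := by
    rw [← Matrix.toLin'_apply, Matrix.toLin'_toMatrix']
  rw [h1]
  have h2 := LinearMap.congr_fun hg x
  simpa using h2

/-- The value of a lift in terms of the exponent sums. -/
theorem lift_eq_add {G : Type*} [Group G] {V : Type*} [AddCommGroup V] [Module ℚ V]
    (ψ : G →* Multiplicative V) {n : ℕ} (v : Fin n → V)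
    (x : Monoid.Coprod G (FreeGroup (Fin n))) :
    Multiplicative.toAdd
        (Monoid.Coprod.lift ψ (FreeGroup.lift fun j => Multiplicative.ofAdd (v j)) x)
      = Multiplicative.toAdd (Monoid.Coprod.lift ψ (1 : FreeGroup (Fin n) →* Multiplicative V) x)
        + ∑ j, ((Multiplicative.toAdd (expSum G n x) j : ℤ) : ℚ) • v j := by
  let L : (Fin n → ℤ) →+ V :=
    { toFun := fun a => ∑ j, ((a j : ℤ) : ℚ) • v j
      map_zero' := by simp
      map_add' := by
        intro a b
        simp [add_smul, Finset.sum_add_distrib] }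
  have key : Monoid.Coprod.lift ψ (FreeGroup.lift fun j => Multiplicative.ofAdd (v j)) =
      Monoid.Coprod.lift ψ (1 : FreeGroup (Fin n) →* Multiplicative V) *
        (AddMonoidHom.toMultiplicative L).comp (expSum G n) := by
    apply Monoid.Coprod.hom_ext
    · ext g
      simp [expSum]
    · apply FreeGroup.ext_hom
      intro j
      apply Multiplicative.toAdd.injective
      simp [expSum, L, Pi.single_apply]
  have h1 := congrArg Multiplicative.toAdd (DFunLike.congr_fun key x)
  simpa [L] using h1

/-- The image of a nonsingular system in a rational vector space has a solution. -/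
theorem exists_solution {G : Type*} [Group G] {V : Type*} [AddCommGroup V] [Module ℚ V]
    (ψ : G →* Multiplicative V) {n m : ℕ}
    (w : Fin m → Monoid.Coprod G (FreeGroup (Fin n))) (hw : Nonsingular w) :
    ∃ v : Fin n → Multiplicative V,
      ∀ i, Monoid.Coprod.lift ψ (FreeGroup.lift v) (w i) = 1 := by
  let A : Matrix (Fin m) (Fin n) ℚ := fun i j =>
    ((Multiplicative.toAdd (expSum G n (w i)) j : ℤ) : ℚ)
  obtain ⟨B, hB⟩ := exists_right_inverse A hw
  let c : Fin m → V := fun i =>
    Multiplicative.toAdd (Monoid.Coprod.lift ψ (1 : FreeGroup (Fin n) →* Multiplicative V) (w i))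
  let v : Fin n → V := fun j => - ∑ k, B j k • c k
  refine ⟨fun j => Multiplicative.ofAdd (v j), ?_⟩
  intro i
  apply Multiplicative.toAdd.injective
  rw [lift_eq_add ψ v (w i)]
  have h1 : ∑ j, A i j • v j = - c i := by
    simp only [v, smul_neg, Finset.sum_neg_distrib, Finset.smul_sum, smul_smul]
    rw [Finset.sum_comm]
    have h2 : ∀ k, ∑ j, (A i j * B j k) • c k = (A * B) i k • c k := by
      intro k
      rw [← Finset.sum_smul, Matrix.mul_apply]
    simp only [h2, hB, Matrix.one_apply]
    simp
  change c i + ∑ j, A i j • v j = 0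
  rw [h1]
  simp

end Vale.Agent.Lib.P174
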