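import Mathlib
import Vale.Agent.Lib.P174.Defs
import Vale.Agent.Lib.P174.Solve

namespace Vale.Agent.Lib.P174

open Monoid Matrix

/-- The value of a lift in terms of the exponent sums (integral version). -/
theorem lift_eq_add_int {G : Type*} [Group G] {T : Type*} [AddCommGroup T]
    (ψ : G →* Multiplicative T) {n : ℕ} (v : Fin n → T)
    (x : Monoid.Coprod G (FreeGroup (Fin n))) :
    Multiplicative.toAdd
        (Monoid.Coprod.lift ψ (FreeGroup.lift fun j => Multiplicative.ofAdd (v j)) x)
      = Multiplicative.toAdd (Monoid.Coprod.lift ψ (1 : FreeGroup (Fin n) →* Multiplicative T) x)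
        + ∑ j, (Multiplicative.toAdd (expSum G n x) j) • v j := by
  let L : (Fin n → ℤ) →+ T :=
    { toFun := fun a => ∑ j, (a j) • v j
      map_zero' := by simp
      map_add' := by
        intro a b
        simp [add_smul, Finset.sum_add_distrib] }
  have key : Monoid.Coprod.lift ψ (FreeGroup.lift fun j => Multiplicative.ofAdd (v j)) =
      Monoid.Coprod.lift ψ (1 : FreeGroup (Fin n) →* Multiplicative T) *
        (AddMonoidHom.toMultiplicative L).comp (expSum G n) := by
    apply Monoid.Coprod.hom_ext
    · ext g
      simp [expSum]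
    · apply FreeGroup.ext_hom
      intro j
      apply Multiplicative.toAdd.injective
      simp [expSum, L, Pi.single_apply]
  have h1 := congrArg Multiplicative.toAdd (DFunLike.congr_fun key x)
  simpa [L] using h1

/-- An integral linear system whose matrix has linearly independent rows over the rationals is
solvable in every divisible abelian group. -/
theorem exists_int_solution {T : Type*} [AddCommGroup T] [DivisibleBy T ℤ] {m n : ℕ}
    (A : Matrix (Fin m) (Fin n) ℤ)
    (hA : LinearIndependent ℚ fun i : Fin m => fun j : Fin n => ((A i j : ℤ) : ℚ))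
    (c : Fin m → T) : ∃ v : Fin n → T, ∀ i, ∑ j, A i j • v j = c i := by
  classical
  let Aq : Matrix (Fin m) (Fin n) ℚ := fun i j => ((A i j : ℤ) : ℚ)
  obtain ⟨B, hB⟩ := exists_right_inverse Aq hA
  let N : ℕ := ∏ j, ∏ k, (B j k).den
  have hN0 : N ≠ 0 := by
    apply Finset.prod_ne_zero_iff.mpr
    intro j _
    apply Finset.prod_ne_zero_iff.mpr
    intro k _
    exact (B j k).den_nz
  have hN : (N : ℤ) ≠ 0 := by exact_mod_cast hN0
  have hB' : ∀ j k, ∃ z : ℤ, (z : ℚ) = (N : ℚ) * B j k := by
    intro j k
    have hdvd : (B j k).den ∣ N := by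
      have h1 : (B j k).den ∣ ∏ k', (B j k').den :=
        Finset.dvd_prod_of_mem (fun k' => (B j k').den) (Finset.mem_univ k)
      have h2 : (∏ k', (B j k').den) ∣ N :=
        Finset.dvd_prod_of_mem (fun j' => ∏ k', (B j' k').den) (Finset.mem_univ j)
      exact h1.trans h2
    obtain ⟨q, hq⟩ := hdvd
    refine ⟨(B j k).num * q, ?_⟩
    have h6 : B j k * ((B j k).den : ℚ) = ((B j k).num : ℚ) := Rat.mul_den_eq_num (B j k)
    rw [hq]
    push_cast
    rw [← h6]
    ring
  choose B' hB' using hB'
  have hAB' : ∀ i k, ∑ j, A i j * B' j k = if i = k then (N : ℤ) else 0 := by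
    intro i k
    have h1 : ((∑ j, A i j * B' j k : ℤ) : ℚ) = ((if i = k then (N : ℤ) else 0 : ℤ) : ℚ) := by
      have h2 := congrFun (congrFun hB i) k
      rw [Matrix.mul_apply] at h2
      simp only [Matrix.one_apply, Aq] at h2
      push_cast
      simp only [hB']
      have h3 : ∑ j, ((A i j : ℤ) : ℚ) * ((N : ℚ) * B j k) =
          (N : ℚ) * ∑ j, ((A i j : ℤ) : ℚ) * B j k := by
        rw [Finset.mul_sum]
        apply Finset.sum_congr rfl
        intro j _
        ring
      rw [h3, h2]
      split_ifs <;> simp
    exact_mod_cast h1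
  let c' : Fin m → T := fun k => DivisibleBy.div (c k) (N : ℤ)
  have hc' : ∀ k, (N : ℤ) • c' k = c k := fun k => DivisibleBy.div_cancel (c k) hN
  refine ⟨fun j => ∑ k, B' j k • c' k, ?_⟩
  intro i
  calc ∑ j, A i j • ∑ k, B' j k • c' k
      = ∑ j, ∑ k, (A i j * B' j k) • c' k := by
        apply Finset.sum_congr rfl
        intro j _
        rw [Finset.smul_sum]
        apply Finset.sum_congr rfl
        intro k _
        rw [mul_smul]
    _ = ∑ k, (∑ j, A i j * B' j k) • c' k := by
        rw [Finset.sum_comm]
        apply Finset.sum_congr rfl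
        intro k _
        rw [Finset.sum_smul]
    _ = ∑ k, (if i = k then (N : ℤ) else 0) • c' k := by
        apply Finset.sum_congr rfl
        intro k _
        rw [hAB']
    _ = c i := by
        simp [hc']

/-- Commutative groups satisfy Howie's conjecture: a nonsingular system over a commutative group
is solved in a divisible commutative overgroup. -/
theorem howie_of_commGroup (G : Type*) [CommGroup G] : HowieProperty G := by
  intro n m w hw
  have key : ∀ g : G, Monoid.Coprod.inl g ∈ Subgroup.normalClosure (Set.range w) → g = 1 := by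
    intro g hgmem
    by_contra hg
    have hg' : Additive.ofMul g ≠ 0 := by
      intro h
      exact hg (by simpa using h)
    obtain ⟨χ, hχ⟩ := CharacterModule.exists_character_apply_ne_zero_of_ne_zero hg'
    let ψ : G →* Multiplicative (AddCircle (1 : ℚ)) :=
      { toFun := fun a => Multiplicative.ofAdd (χ (Additive.ofMul a))
        map_one' := by simp
        map_mul' := by
          intro a b
          simp [map_add] }
    let A : Matrix (Fin m) (Fin n) ℤ := fun i j => Multiplicative.toAdd (expSum G n (w i)) j
    let c : Fin m → AddCircle (1 : ℚ) := fun i =>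
      - Multiplicative.toAdd (Monoid.Coprod.lift ψ
        (1 : FreeGroup (Fin n) →* Multiplicative (AddCircle (1 : ℚ))) (w i))
    obtain ⟨v, hv⟩ := exists_int_solution A hw c
    let Φ : Monoid.Coprod G (FreeGroup (Fin n)) →* Multiplicative (AddCircle (1 : ℚ)) :=
      Monoid.Coprod.lift ψ (FreeGroup.lift fun j => Multiplicative.ofAdd (v j))
    have hΦ : ∀ i, Φ (w i) = 1 := by
      intro i
      apply Multiplicative.toAdd.injective
      rw [lift_eq_add_int ψ v (w i)]
      have h1 := hv i
      simp only [A, c] at h1
      rw [h1]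
      simp
    have hker : Subgroup.normalClosure (Set.range w) ≤ Φ.ker := by
      apply Subgroup.normalClosure_le_normal
      rintro _ ⟨i, rfl⟩
      exact hΦ i
    have h2 : Φ (Monoid.Coprod.inl g) = 1 := hker hgmem
    apply hχ
    have h3 : Φ (Monoid.Coprod.inl g) = Multiplicative.ofAdd (χ (Additive.ofMul g)) := by
      simp [Φ, ψ]
    rw [h3] at h2
    exact Multiplicative.ofAdd.injective h2
  intro g g' h
  have h1 : Monoid.Coprod.inl (g⁻¹ * g') ∈ Subgroup.normalClosure (Set.range w) := by
    rw [map_mul, map_inv]
    simp only [MonoidHom.comp_apply, QuotientGroup.mk'_apply] at h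
    exact QuotientGroup.eq.mp h
  exact inv_mul_eq_one.mp (key _ h1)

end Vale.Agent.Lib.P174
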