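import Mathlib

namespace Vale.Agent.Lib.P174

/-- A group is locally indicable when every nontrivial finitely generated subgroup admits a
surjective homomorphism onto the infinite cyclic group. -/
def LocallyIndicable (G : Type*) [Group G] : Prop :=
  ∀ H : Subgroup G, H.FG → H ≠ ⊥ → ∃ f : H →* Multiplicative ℤ, Function.Surjective f

end Vale.Agent.Lib.P174
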