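import Mathlib
import Vale.Agent.Lib.P174.Defs
import Vale.Agent.Lib.P174.Infinite

namespace Vale.Agent.Lib.P174

open Monoid

universe u

/-- A block: a coefficient followed by an unknown (`true`) or the inverse of an unknown
(`false`). -/
abbrev Block (Γ : Type u) (κ : Type) := Γ × κ × Bool

/-- A use of a relator in a certificate: the conjugating word `U`, a trailing coefficient `d`,
the index `i` of the relator and its sign `e`. -/
structure Use (Γ : Type u) (κ ι : Type) : Type u where
  U : List (Block Γ κ)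
  d : Γ
  i : ι
  e : Bool

/-- An element or its inverse, according to a sign. -/
def pw {α : Type*} [Inv α] (e : Bool) (x : α) : α := if e then x else x⁻¹

theorem map_pw {α β : Type*} [Group α] [Group β] (f : α →* β) (e : Bool) (x : α) :
    f (pw e x) = pw e (f x) := by
  cases e <;> simp [pw]

section Words

variable {Γ : Type u} [Group Γ] {κ ι : Type}

/-- The value of a block in the free product. -/
def bEval (b : Block Γ κ) : Monoid.Coprod Γ (FreeGroup κ) :=
  Monoid.Coprod.inl b.1 * Monoid.Coprod.inr (pw b.2.2 (FreeGroup.of b.2.1))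

/-- The value of a word of blocks in the free product. -/
def wEval (W : List (Block Γ κ)) : Monoid.Coprod Γ (FreeGroup κ) := (W.map bEval).prod

@[simp] theorem wEval_nil : wEval ([] : List (Block Γ κ)) = 1 := rfl

@[simp] theorem wEval_cons (b : Block Γ κ) (t : List (Block Γ κ)) :
    wEval (b :: t) = bEval b * wEval t := by
  simp [wEval]

theorem wEval_append (W₁ W₂ : List (Block Γ κ)) :
    wEval (W₁ ++ W₂) = wEval W₁ * wEval W₂ := by
  simp [wEval]

/-- The exponent vector of a word of blocks. -/
noncomputable def wExp (W : List (Block Γ κ)) : κ →₀ ℚ :=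
  (W.map fun b => Finsupp.single b.2.1 (if b.2.2 then (1 : ℚ) else -1)).sum

@[simp] theorem wExp_nil : wExp ([] : List (Block Γ κ)) = 0 := rfl

@[simp] theorem wExp_cons (b : Block Γ κ) (t : List (Block Γ κ)) :
    wExp (b :: t) = Finsupp.single b.2.1 (if b.2.2 then (1 : ℚ) else -1) + wExp t := by
  simp [wExp]

theorem expF_wEval (W : List (Block Γ κ)) :
    expF Γ κ (wEval W) = Multiplicative.ofAdd (wExp W) := by
  induction W with
  | nil => simp
  | cons b t ih =>
    rw [wEval_cons, map_mul, ih, wExp_cons, ofAdd_add]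
    congr 1
    obtain ⟨c, j, e⟩ := b
    cases e
    · simp [bEval, pw, expF]
    · simp [bEval, pw, expF]

theorem inl_mul_wEval_cons (d : Γ) (b : Block Γ κ) (t : List (Block Γ κ)) :
    Monoid.Coprod.inl d * wEval (b :: t) = wEval ((d * b.1, b.2) :: t) := by
  simp [bEval, mul_assoc]

theorem exists_inl_mul_wEval (d : Γ) (W : List (Block Γ κ)) :
    ∃ (W' : List (Block Γ κ)) (d' : Γ),
      Monoid.Coprod.inl d * wEval W = wEval W' * Monoid.Coprod.inl d' := by
  cases W with
  | nil => exact ⟨[], d, by simp⟩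
  | cons b t => exact ⟨(d * b.1, b.2) :: t, 1, by rw [inl_mul_wEval_cons]; simp⟩

/-- Every element of the free product is a word of blocks followed by a coefficient. -/
theorem exists_word (x : Monoid.Coprod Γ (FreeGroup κ)) :
    ∃ (W : List (Block Γ κ)) (d : Γ), x = wEval W * Monoid.Coprod.inl d := by
  have hmul : ∀ x y : Monoid.Coprod Γ (FreeGroup κ),
      (∃ (W : List (Block Γ κ)) (d : Γ), x = wEval W * Monoid.Coprod.inl d) →
      (∃ (W : List (Block Γ κ)) (d : Γ), y = wEval W * Monoid.Coprod.inl d) →
      ∃ (W : List (Block Γ κ)) (d : Γ), x * y = wEval W * Monoid.Coprod.inl d := by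
    rintro x y ⟨W₁, d₁, rfl⟩ ⟨W₂, d₂, rfl⟩
    obtain ⟨W', d', h⟩ := exists_inl_mul_wEval d₁ W₂
    refine ⟨W₁ ++ W', d' * d₂, ?_⟩
    rw [wEval_append, map_mul]
    calc wEval W₁ * Monoid.Coprod.inl d₁ * (wEval W₂ * Monoid.Coprod.inl d₂)
        = wEval W₁ * (Monoid.Coprod.inl d₁ * wEval W₂) * Monoid.Coprod.inl d₂ := by group
      _ = wEval W₁ * wEval W' * (Monoid.Coprod.inl d' * Monoid.Coprod.inl d₂) := by
          rw [h]; group
  induction x using Monoid.Coprod.induction_on with
  | inl g => exact ⟨[], g, by simp⟩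
  | inr f =>
    induction f using FreeGroup.induction_on with
    | C1 => exact ⟨[], 1, by simp⟩
    | of j => exact ⟨[((1 : Γ), j, true)], 1, by simp [bEval, pw]⟩
    | inv_of j _ => exact ⟨[((1 : Γ), j, false)], 1, by simp [bEval, pw]⟩
    | mul a b iha ihb =>
      rw [map_mul]
      exact hmul _ _ iha ihb
  | mul a b iha ihb => exact hmul _ _ iha ihb

/-- The value of a use: a conjugate of a relator or of its inverse. -/
def useEval (W : ι → List (Block Γ κ)) (u : Use Γ κ ι) : Monoid.Coprod Γ (FreeGroup κ) :=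
  (wEval u.U * Monoid.Coprod.inl u.d) * pw u.e (wEval (W u.i)) *
    (wEval u.U * Monoid.Coprod.inl u.d)⁻¹

/-- The value of a certificate: the product of its uses. -/
def cEval (W : ι → List (Block Γ κ)) (uses : List (Use Γ κ ι)) :
    Monoid.Coprod Γ (FreeGroup κ) :=
  (uses.map (useEval W)).prod

@[simp] theorem cEval_nil (W : ι → List (Block Γ κ)) : cEval W [] = 1 := rfl

@[simp] theorem cEval_cons (W : ι → List (Block Γ κ)) (u : Use Γ κ ι)
    (t : List (Use Γ κ ι)) : cEval W (u :: t) = useEval W u * cEval W t := by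
  simp [cEval]

theorem cEval_append (W : ι → List (Block Γ κ)) (l₁ l₂ : List (Use Γ κ ι)) :
    cEval W (l₁ ++ l₂) = cEval W l₁ * cEval W l₂ := by
  simp [cEval]

theorem useEval_mem (W : ι → List (Block Γ κ)) (u : Use Γ κ ι) :
    useEval W u ∈ Subgroup.normalClosure (Set.range fun i => wEval (W i)) := by
  unfold useEval
  apply Subgroup.normalClosure_normal.conj_mem
  have h : wEval (W u.i) ∈ Subgroup.normalClosure (Set.range fun i => wEval (W i)) :=
    Subgroup.subset_normalClosure ⟨u.i, rfl⟩
  cases he : u.e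
  · simpa [pw] using Subgroup.inv_mem _ h
  · simpa [pw] using h

theorem cEval_mem (W : ι → List (Block Γ κ)) (uses : List (Use Γ κ ι)) :
    cEval W uses ∈ Subgroup.normalClosure (Set.range fun i => wEval (W i)) := by
  induction uses with
  | nil => simpa using Subgroup.one_mem _
  | cons u t ih =>
    rw [cEval_cons]
    exact Subgroup.mul_mem _ (useEval_mem W u) ih

theorem exists_conj_use (W : ι → List (Block Γ κ)) (x : Monoid.Coprod Γ (FreeGroup κ))
    (u : Use Γ κ ι) : ∃ u' : Use Γ κ ι, x * useEval W u * x⁻¹ = useEval W u' := by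
  obtain ⟨U', d', h⟩ := exists_word (x * (wEval u.U * Monoid.Coprod.inl u.d))
  refine ⟨⟨U', d', u.i, u.e⟩, ?_⟩
  unfold useEval
  simp only
  rw [← h]
  group

theorem exists_conj_uses (W : ι → List (Block Γ κ)) (x : Monoid.Coprod Γ (FreeGroup κ))
    (uses : List (Use Γ κ ι)) :
    ∃ uses' : List (Use Γ κ ι), x * cEval W uses * x⁻¹ = cEval W uses' := by
  induction uses with
  | nil => exact ⟨[], by simp⟩
  | cons u t ih =>
    obtain ⟨t', ht⟩ := ih
    obtain ⟨u', hu⟩ := exists_conj_use W x u
    refine ⟨u' :: t', ?_⟩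
    rw [cEval_cons, cEval_cons, ← hu, ← ht]
    group

theorem exists_inv_uses (W : ι → List (Block Γ κ)) (uses : List (Use Γ κ ι)) :
    ∃ uses' : List (Use Γ κ ι), (cEval W uses)⁻¹ = cEval W uses' := by
  induction uses with
  | nil => exact ⟨[], by simp⟩
  | cons u t ih =>
    obtain ⟨t', ht⟩ := ih
    refine ⟨t' ++ [⟨u.U, u.d, u.i, !u.e⟩], ?_⟩
    rw [cEval_cons, cEval_append, mul_inv_rev, ht]
    congr 1
    simp only [cEval_cons, cEval_nil, mul_one]
    unfold useEval
    simp only
    cases u.e
    · simp only [pw, Bool.not_false, if_true, Bool.false_eq_true, if_false]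
      group
    · simp only [pw, Bool.not_true, if_true, Bool.false_eq_true, if_false]
      group

/-- Every element of the normal closure of the relators is the value of a certificate. -/
theorem exists_uses (W : ι → List (Block Γ κ)) {x : Monoid.Coprod Γ (FreeGroup κ)}
    (hx : x ∈ Subgroup.normalClosure (Set.range fun i => wEval (W i))) :
    ∃ uses : List (Use Γ κ ι), x = cEval W uses := by
  let S : Subgroup (Monoid.Coprod Γ (FreeGroup κ)) :=
    { carrier := {x | ∃ uses : List (Use Γ κ ι), x = cEval W uses}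
      one_mem' := ⟨[], by simp⟩
      mul_mem' := by
        rintro a b ⟨l₁, rfl⟩ ⟨l₂, rfl⟩
        exact ⟨l₁ ++ l₂, (cEval_append W l₁ l₂).symm⟩
      inv_mem' := by
        rintro a ⟨l, rfl⟩
        exact exists_inv_uses W l }
  have hS : S.Normal := by
    constructor
    rintro a ⟨l, rfl⟩ y
    exact exists_conj_uses W y l
  have hle : Subgroup.normalClosure (Set.range fun i => wEval (W i)) ≤ S := by
    apply Subgroup.normalClosure_le_normal
    rintro _ ⟨i, rfl⟩
    refine ⟨[⟨[], 1, i, true⟩], ?_⟩
    simp [useEval, pw]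
  exact hle hx

end Words

end Vale.Agent.Lib.P174
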