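import Mathlib
import Vale.Agent.Lib.P174.Words

namespace Vale.Agent.Lib.P174

universe u

/-- Ends of edges: the base point `none` and, for each unknown, its tail (`false`) and its
head (`true`). -/
abbrev Ept (κ : Type) := Option (κ × Bool)

/-- A record: a coefficient syllable read between two ends. -/
abbrev Rcd (Γ : Type u) (κ : Type) := Ept κ × Ept κ × Γ

section Records

variable {Γ : Type u} {κ ι : Type}

/-- The end at which a block is entered. -/
def inEnd (b : Block Γ κ) : Ept κ := some (b.2.1, !b.2.2)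

/-- The end at which a block is left. -/
def outEnd (b : Block Γ κ) : Ept κ := some (b.2.1, b.2.2)

/-- The end reached after reading a word from the end `a`. -/
def lastEnd (a : Ept κ) : List (Block Γ κ) → Ept κ
  | [] => a
  | b :: t => lastEnd (outEnd b) t

/-- The unfolding equations of `lastEnd`, used here once so that they are generated in this
file and shared by all later files. -/
theorem lastEnd_unfold_once (a : Ept κ) (W : List (Block Γ κ)) :
    (lastEnd a ([] : List (Block Γ κ)) = a) ∧
      (∀ (b : Block Γ κ) (t : List (Block Γ κ)), lastEnd a (b :: t) = lastEnd (outEnd b) t) ∧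
      lastEnd a W = lastEnd a W := by
  have h0 := lastEnd.eq_def a W
  exact ⟨lastEnd.eq_1 a, fun b t => lastEnd.eq_2 a b t, rfl⟩

/-- The records of a word read from the end `a`. -/
def recs (a : Ept κ) : List (Block Γ κ) → List (Rcd Γ κ)
  | [] => []
  | b :: t => (a, inEnd b, b.1) :: recs (outEnd b) t

/-- The records of a use. -/
def useRecs (W : ι → List (Block Γ κ)) (u : Use Γ κ ι) : List (Rcd Γ κ) :=
  recs none u.U ++
    (lastEnd none u.U, lastEnd none (W u.i), u.d) :: recs (lastEnd none (W u.i)) (W u.i)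

/-- The records of a certificate. -/
def allRecs (W : ι → List (Block Γ κ)) (uses : List (Use Γ κ ι)) : List (Rcd Γ κ) :=
  uses.flatMap (useRecs W)

/-- The blocks of a certificate. -/
def allBlocks (W : ι → List (Block Γ κ)) (uses : List (Use Γ κ ι)) : List (Block Γ κ) :=
  uses.flatMap fun u => u.U ++ W u.i

theorem lastEnd_self (a : Ept κ) (W : List (Block Γ κ)) :
    lastEnd (lastEnd a W) W = lastEnd a W := by
  cases W <;> rfl

theorem lastEnd_of_ne_nil (a a' : Ept κ) {W : List (Block Γ κ)} (hW : W ≠ []) :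
    lastEnd a W = lastEnd a' W := by
  cases W with
  | nil => exact absurd rfl hW
  | cons b t => rfl

theorem recs_length (a : Ept κ) (W : List (Block Γ κ)) : (recs a W).length = W.length := by
  induction W generalizing a with
  | nil => rfl
  | cons b t ih => simp [recs, ih]

theorem recs_syl (a : Ept κ) (W : List (Block Γ κ)) :
    (recs a W).map (fun r => r.2.2) = W.map (fun b => b.1) := by
  induction W generalizing a with
  | nil => rfl
  | cons b t ih => simp [recs, ih]

theorem useRecs_length (W : ι → List (Block Γ κ)) (u : Use Γ κ ι) :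
    (useRecs W u).length = u.U.length + (W u.i).length + 1 := by
  simp [useRecs, recs_length]
  omega

/-- An end is the base point or belongs to an unknown in the given set. -/
def EndIn (vs : Set κ) (x : Ept κ) : Prop := ∀ j e, x = some (j, e) → j ∈ vs

theorem endIn_none (vs : Set κ) : EndIn vs (none : Ept κ) := by
  intro j e h
  cases h

theorem lastEnd_endIn (vs : Set κ) (a : Ept κ) (W : List (Block Γ κ)) (ha : EndIn vs a)
    (hW : ∀ b ∈ W, b.2.1 ∈ vs) : EndIn vs (lastEnd a W) := by
  induction W generalizing a with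
  | nil => exact ha
  | cons b t ih =>
    apply ih
    · intro j e h
      simp only [outEnd, Option.some.injEq, Prod.mk.injEq] at h
      rw [← h.1]
      exact hW b (by simp)
    · intro b' hb'
      exact hW b' (by simp [hb'])

theorem recs_endIn (vs : Set κ) (a : Ept κ) (W : List (Block Γ κ)) (ha : EndIn vs a)
    (hW : ∀ b ∈ W, b.2.1 ∈ vs) : ∀ r ∈ recs a W, EndIn vs r.1 ∧ EndIn vs r.2.1 := by
  induction W generalizing a with
  | nil => intro r hr; cases hr
  | cons b t ih =>
    intro r hr
    simp only [recs, List.mem_cons] at hr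
    have hb : b.2.1 ∈ vs := hW b (by simp)
    rcases hr with rfl | hr
    · refine ⟨ha, ?_⟩
      intro j e h
      simp only [inEnd, Option.some.injEq, Prod.mk.injEq] at h
      rw [← h.1]
      exact hb
    · apply ih (outEnd b) _ _ r hr
      · intro j e h
        simp only [outEnd, Option.some.injEq, Prod.mk.injEq] at h
        rw [← h.1]
        exact hb
      · intro b' hb'
        exact hW b' (by simp [hb'])

theorem useRecs_endIn (vs : Set κ) (W : ι → List (Block Γ κ)) (u : Use Γ κ ι)
    (hU : ∀ b ∈ u.U, b.2.1 ∈ vs) (hW : ∀ b ∈ W u.i, b.2.1 ∈ vs) :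
    ∀ r ∈ useRecs W u, EndIn vs r.1 ∧ EndIn vs r.2.1 := by
  intro r hr
  simp only [useRecs, List.mem_append, List.mem_cons] at hr
  rcases hr with hr | rfl | hr
  · exact recs_endIn vs none u.U (endIn_none vs) hU r hr
  · exact ⟨lastEnd_endIn vs none u.U (endIn_none vs) hU,
      lastEnd_endIn vs none (W u.i) (endIn_none vs) hW⟩
  · exact recs_endIn vs _ (W u.i) (lastEnd_endIn vs none (W u.i) (endIn_none vs) hW) hW r hr

theorem allRecs_endIn (W : ι → List (Block Γ κ)) (uses : List (Use Γ κ ι)) :
    ∀ r ∈ allRecs W uses,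
      EndIn {j | ∃ b ∈ allBlocks W uses, b.2.1 = j} r.1 ∧
      EndIn {j | ∃ b ∈ allBlocks W uses, b.2.1 = j} r.2.1 := by
  intro r hr
  simp only [allRecs, List.mem_flatMap] at hr
  obtain ⟨u, hu, hr⟩ := hr
  apply useRecs_endIn _ W u _ _ r hr
  · intro b hb
    refine ⟨b, ?_, rfl⟩
    simp only [allBlocks, List.mem_flatMap]
    exact ⟨u, hu, by simp [hb]⟩
  · intro b hb
    refine ⟨b, ?_, rfl⟩
    simp only [allBlocks, List.mem_flatMap]
    exact ⟨u, hu, by simp [hb]⟩

theorem allRecs_length (W : ι → List (Block Γ κ)) (uses : List (Use Γ κ ι)) :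
    (allRecs W uses).length = (allBlocks W uses).length + uses.length := by
  induction uses with
  | nil => rfl
  | cons u t ih =>
    simp only [allRecs, allBlocks, List.flatMap_cons, List.length_append, List.length_cons] at ih ⊢
    rw [ih, useRecs_length]
    omega

theorem coeff_mem_allRecs (W : ι → List (Block Γ κ)) (uses : List (Use Γ κ ι))
    (u : Use Γ κ ι) (hu : u ∈ uses) :
    (∀ b ∈ u.U, ∃ r ∈ allRecs W uses, r.2.2 = b.1) ∧ (∃ r ∈ allRecs W uses, r.2.2 = u.d) ∧
      (∀ b ∈ W u.i, ∃ r ∈ allRecs W uses, r.2.2 = b.1) := by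
  have key : ∀ (a : Ept κ) (V : List (Block Γ κ)), ∀ b ∈ V, ∃ r ∈ recs a V, r.2.2 = b.1 := by
    intro a V b hb
    have h1 : b.1 ∈ V.map (fun b => b.1) := List.mem_map_of_mem hb
    rw [← recs_syl a V] at h1
    obtain ⟨r, hr, hr2⟩ := List.mem_map.mp h1
    exact ⟨r, hr, hr2⟩
  have hsub : ∀ r ∈ useRecs W u, r ∈ allRecs W uses := by
    intro r hr
    simp only [allRecs, List.mem_flatMap]
    exact ⟨u, hu, hr⟩
  refine ⟨?_, ?_, ?_⟩
  · intro b hb
    obtain ⟨r, hr, hr2⟩ := key none u.U b hb
    exact ⟨r, hsub r (by simp [useRecs, hr]), hr2⟩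
  · exact ⟨_, hsub (lastEnd none u.U, lastEnd none (W u.i), u.d) (by simp [useRecs]), rfl⟩
  · intro b hb
    obtain ⟨r, hr, hr2⟩ := key (lastEnd none (W u.i)) (W u.i) b hb
    exact ⟨r, hsub r (by simp [useRecs, hr]), hr2⟩

end Records

section Measure

variable {Γ : Type u} [Group Γ] {κ ι : Type}

open Classical in
/-- The number of records with a nontrivial syllable. -/
noncomputable def ntCount : List (Rcd Γ κ) → ℕ
  | [] => 0
  | r :: t => (if r.2.2 = 1 then 0 else 1) + ntCount t

theorem ntCount_le_length (R : List (Rcd Γ κ)) : ntCount R ≤ R.length := by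
  induction R with
  | nil => simp [ntCount]
  | cons r t ih =>
    simp only [ntCount, List.length_cons]
    split_ifs <;> omega

theorem ntCount_map_le {Γ' : Type u} [Group Γ'] {κ' : Type} (f : Rcd Γ κ → Rcd Γ' κ')
    (R : List (Rcd Γ κ)) (h : ∀ r ∈ R, r.2.2 = 1 → (f r).2.2 = 1) :
    ntCount (R.map f) ≤ ntCount R := by
  induction R with
  | nil => simp [ntCount]
  | cons r t ih =>
    have ih' := ih (fun r' hr' => h r' (by simp [hr']))
    have hr := h r (by simp)
    simp only [List.map_cons, ntCount]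
    split_ifs with h1 h2 h2
    · omega
    · omega
    · exact absurd (hr h2) h1
    · omega

theorem ntCount_map_lt {Γ' : Type u} [Group Γ'] {κ' : Type} (f : Rcd Γ κ → Rcd Γ' κ')
    (R : List (Rcd Γ κ)) (h : ∀ r ∈ R, r.2.2 = 1 → (f r).2.2 = 1)
    (h' : ∃ r ∈ R, r.2.2 ≠ 1 ∧ (f r).2.2 = 1) :
    ntCount (R.map f) < ntCount R := by
  induction R with
  | nil =>
    obtain ⟨r, hr, _⟩ := h'
    cases hr
  | cons r t ih =>
    have hle := ntCount_map_le f t (fun r' hr' => h r' (by simp [hr']))
    have hr := h r (by simp)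
    obtain ⟨r₀, hr₀, h1, h2⟩ := h'
    simp only [List.mem_cons] at hr₀
    simp only [List.map_cons, ntCount]
    rcases hr₀ with rfl | hr₀
    · rw [if_pos h2, if_neg h1]
      omega
    · have ih' := ih (fun r' hr' => h r' (by simp [hr'])) ⟨r₀, hr₀, h1, h2⟩
      split_ifs with h3 h4 h4
      · omega
      · omega
      · exact absurd (hr h4) h3
      · omega

/-- The complexity of a list of unknowns (with repetitions) and a list of records. -/
noncomputable def muL (vs : List κ) (R : List (Rcd Γ κ)) : ℕ :=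
  (vs.length - Set.ncard {j | j ∈ vs}) * (R.length + 1) + ntCount R

theorem ncard_le_length (vs : List κ) : Set.ncard {j | j ∈ vs} ≤ vs.length := by
  classical
  have h : {j | j ∈ vs} = (vs.toFinset : Set κ) := by
    ext j
    simp
  rw [h, Set.ncard_coe_finset]
  exact List.toFinset_card_le vs

theorem muL_lt_of_ntCount_lt (vs : List κ) (R R' : List (Rcd Γ κ))
    (hlen : R'.length = R.length) (h : ntCount R' < ntCount R) : muL vs R' < muL vs R := by
  unfold muL
  rw [hlen]
  omega

theorem muL_le_of_ntCount_le {Γ' : Type u} [Group Γ'] (vs : List κ) (R : List (Rcd Γ κ))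
    (R' : List (Rcd Γ' κ))
    (hlen : R'.length = R.length) (h : ntCount R' ≤ ntCount R) : muL vs R' ≤ muL vs R := by
  unfold muL
  rw [hlen]
  omega

theorem muL_lt_of_ncard_lt {Γ' : Type u} [Group Γ'] {κ' : Type} (vs : List κ) (vs' : List κ')
    (R : List (Rcd Γ κ)) (R' : List (Rcd Γ' κ')) (hvs : vs'.length = vs.length)
    (hlen : R'.length = R.length)
    (h : Set.ncard {j | j ∈ vs} < Set.ncard {j | j ∈ vs'}) : muL vs' R' < muL vs R := by
  unfold muL
  have h1 := ncard_le_length vs'
  have h2 := ntCount_le_length R'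
  rw [hvs] at h1 ⊢
  rw [hlen] at h2 ⊢
  have h3 : vs.length - Set.ncard {j | j ∈ vs'} + 1 ≤ vs.length - Set.ncard {j | j ∈ vs} := by
    omega
  have h4 := Nat.mul_le_mul_right (R.length + 1) h3
  have h5 : (vs.length - Set.ncard {j | j ∈ vs'} + 1) * (R.length + 1) =
      (vs.length - Set.ncard {j | j ∈ vs'}) * (R.length + 1) + (R.length + 1) := by ring
  rw [h5] at h4
  omega

/-- The complexity of a certificate. -/
noncomputable def mu (W : ι → List (Block Γ κ)) (uses : List (Use Γ κ ι)) : ℕ :=
  muL ((allBlocks W uses).map fun b => b.2.1) (allRecs W uses)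

/-- A list of records is tight when the two ends of every record with a nontrivial syllable
are connected through records with trivial syllables. -/
def TightL (R : List (Rcd Γ κ)) : Prop :=
  ∀ r ∈ R, r.2.2 ≠ 1 → Relation.EqvGen (fun a b => (a, b, (1 : Γ)) ∈ R) r.1 r.2.1

/-- The action of a gauge on a record. -/
def gaugeRec (σ : Ept κ → Γ) (r : Rcd Γ κ) : Rcd Γ κ := (r.1, r.2.1, σ r.1 * r.2.2 * (σ r.2.1)⁻¹)

/-- If a list of records is not tight, some gauge fixing the base point lowers the number of
nontrivial syllables. -/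
theorem exists_gauge (R : List (Rcd Γ κ)) (h : ¬ TightL R) :
    ∃ σ : Ept κ → Γ, σ none = 1 ∧ ntCount (R.map (gaugeRec σ)) < ntCount R := by
  classical
  unfold TightL at h
  push Not at h
  obtain ⟨r, hr, hr1, hr2⟩ := h
  let E : Ept κ → Ept κ → Prop := Relation.EqvGen (fun a b => (a, b, (1 : Γ)) ∈ R)
  have hE : ∀ r' ∈ R, r'.2.2 = 1 → E r'.1 r'.2.1 := by
    intro r' hr' h1
    apply Relation.EqvGen.rel
    have : r' = (r'.1, r'.2.1, (1 : Γ)) := by
      rw [← h1]
    rw [← this]
    exact hr'
  by_cases hb : E r.2.1 none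
  · refine ⟨fun x => if E r.1 x then (r.2.2)⁻¹ else 1, ?_, ?_⟩
    · have : ¬ E r.1 none := fun h1 => hr2 (Relation.EqvGen.trans _ _ _ h1 (Relation.EqvGen.symm _ _ hb))
      simp [this]
    · apply ntCount_map_lt
      · intro r' hr' h1
        have h2 := hE r' hr' h1
        have h3 : E r.1 r'.1 ↔ E r.1 r'.2.1 :=
          ⟨fun h => Relation.EqvGen.trans _ _ _ h h2,
            fun h => Relation.EqvGen.trans _ _ _ h (Relation.EqvGen.symm _ _ h2)⟩
        simp only [gaugeRec, h1, h3]
        split_ifs <;> simp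
      · refine ⟨r, hr, hr1, ?_⟩
        have h1 : E r.1 r.1 := Relation.EqvGen.refl _
        have h2 : ¬ E r.1 r.2.1 := hr2
        simp [gaugeRec, h1, h2]
  · refine ⟨fun x => if E r.2.1 x then r.2.2 else 1, ?_, ?_⟩
    · simp [hb]
    · apply ntCount_map_lt
      · intro r' hr' h1
        have h2 := hE r' hr' h1
        have h3 : E r.2.1 r'.1 ↔ E r.2.1 r'.2.1 :=
          ⟨fun h => Relation.EqvGen.trans _ _ _ h h2,
            fun h => Relation.EqvGen.trans _ _ _ h (Relation.EqvGen.symm _ _ h2)⟩
        simp only [gaugeRec, h1, h3]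
        split_ifs <;> simp
      · refine ⟨r, hr, hr1, ?_⟩
        have h1 : E r.2.1 r.2.1 := Relation.EqvGen.refl _
        have h2 : ¬ E r.2.1 r.1 := fun h => hr2 (Relation.EqvGen.symm _ _ h)
        simp [gaugeRec, h1, h2]

end Measure

end Vale.Agent.Lib.P174
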