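import Mathlib
import Vale.Agent.Lib.P174.Words
import Vale.Agent.Lib.P174.Records

namespace Vale.Agent.Lib.P174

open Monoid

universe u

section Gauge

variable {Γ : Type u} [Group Γ] {κ ι : Type} (σ : Ept κ → Γ)

/-- The action of a gauge on a word read from the end `a`. -/
def gaugeW : Ept κ → List (Block Γ κ) → List (Block Γ κ)
  | _, [] => []
  | a, b :: t => (σ a * b.1 * (σ (inEnd b))⁻¹, b.2) :: gaugeW (outEnd b) t

/-- The endomorphism of the free product realising a gauge. -/
noncomputable def gaugeHom : Monoid.Coprod Γ (FreeGroup κ) →* Monoid.Coprod Γ (FreeGroup κ) :=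
  Monoid.Coprod.lift Monoid.Coprod.inl
    (FreeGroup.lift fun j => Monoid.Coprod.inl (σ (some (j, false)))⁻¹ *
      Monoid.Coprod.inr (FreeGroup.of j) * Monoid.Coprod.inl (σ (some (j, true))))

theorem gaugeHom_inl (c : Γ) : gaugeHom σ (Monoid.Coprod.inl c : Monoid.Coprod Γ (FreeGroup κ))
    = Monoid.Coprod.inl c := by
  simp [gaugeHom]

theorem gaugeHom_bEval (b : Block Γ κ) :
    gaugeHom σ (bEval b) = Monoid.Coprod.inl (b.1 * (σ (inEnd b))⁻¹) *
      Monoid.Coprod.inr (pw b.2.2 (FreeGroup.of b.2.1)) * Monoid.Coprod.inl (σ (outEnd b)) := by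
  obtain ⟨c, j, e⟩ := b
  cases e
  · simp [bEval, pw, gaugeHom, inEnd, outEnd, mul_assoc]
  · simp [bEval, pw, gaugeHom, inEnd, outEnd, mul_assoc]

theorem gaugeHom_wEval (a : Ept κ) (W : List (Block Γ κ)) :
    Monoid.Coprod.inl (σ a) * gaugeHom σ (wEval W) =
      wEval (gaugeW σ a W) * Monoid.Coprod.inl (σ (lastEnd a W)) := by
  induction W generalizing a with
  | nil => simp [gaugeW, lastEnd]
  | cons b t ih =>
    rw [wEval_cons, map_mul, gaugeHom_bEval]
    simp only [gaugeW, lastEnd, wEval_cons]
    have h := ih (outEnd b)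
    calc Monoid.Coprod.inl (σ a) * (Monoid.Coprod.inl (b.1 * (σ (inEnd b))⁻¹) *
          Monoid.Coprod.inr (pw b.2.2 (FreeGroup.of b.2.1)) * Monoid.Coprod.inl (σ (outEnd b)) *
          gaugeHom σ (wEval t))
        = Monoid.Coprod.inl (σ a) * Monoid.Coprod.inl (b.1 * (σ (inEnd b))⁻¹) *
          Monoid.Coprod.inr (pw b.2.2 (FreeGroup.of b.2.1)) *
          (Monoid.Coprod.inl (σ (outEnd b)) * gaugeHom σ (wEval t)) := by
          simp only [mul_assoc]
      _ = _ := by
          rw [h]
          simp only [bEval, map_mul, mul_assoc]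

/-- The gauged family of relators. -/
def gaugeFam (W : ι → List (Block Γ κ)) : ι → List (Block Γ κ) :=
  fun i => gaugeW σ (lastEnd none (W i)) (W i)

/-- The gauged use. -/
def gaugeUse (W : ι → List (Block Γ κ)) (u : Use Γ κ ι) : Use Γ κ ι :=
  ⟨gaugeW σ none u.U, σ (lastEnd none u.U) * u.d * (σ (lastEnd none (W u.i)))⁻¹, u.i, u.e⟩

theorem gaugeHom_useEval (hσ : σ none = 1) (W : ι → List (Block Γ κ)) (u : Use Γ κ ι) :
    gaugeHom σ (useEval W u) = useEval (gaugeFam σ W) (gaugeUse σ W u) := by
  have h1 := gaugeHom_wEval σ none u.U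
  rw [hσ, map_one, one_mul] at h1
  have h2 := gaugeHom_wEval σ (lastEnd none (W u.i)) (W u.i)
  rw [lastEnd_self] at h2
  have h3 : gaugeHom σ (wEval (W u.i)) =
      (Monoid.Coprod.inl (σ (lastEnd none (W u.i))))⁻¹ *
        wEval (gaugeW σ (lastEnd none (W u.i)) (W u.i)) *
        Monoid.Coprod.inl (σ (lastEnd none (W u.i))) := by
    rw [mul_assoc, ← h2]
    group
  unfold useEval
  simp only [map_mul, map_inv, map_pw, gaugeHom_inl, h1, h3, gaugeFam, gaugeUse]
  cases u.e
  · simp only [pw, Bool.false_eq_true, if_false]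
    group
  · simp only [pw, if_true]
    group

theorem gaugeHom_cEval (hσ : σ none = 1) (W : ι → List (Block Γ κ)) (uses : List (Use Γ κ ι)) :
    gaugeHom σ (cEval W uses) = cEval (gaugeFam σ W) (uses.map (gaugeUse σ W)) := by
  induction uses with
  | nil => simp
  | cons u t ih =>
    rw [cEval_cons, map_mul, ih, gaugeHom_useEval σ hσ, List.map_cons, cEval_cons]

theorem gaugeW_shape (a : Ept κ) (W : List (Block Γ κ)) :
    (gaugeW σ a W).map (fun b => b.2) = W.map (fun b => b.2) := by
  induction W generalizing a with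
  | nil => rfl
  | cons b t ih => simp [gaugeW, ih]

theorem wExp_gaugeW (a : Ept κ) (W : List (Block Γ κ)) : wExp (gaugeW σ a W) = wExp W := by
  induction W generalizing a with
  | nil => rfl
  | cons b t ih => simp [gaugeW, ih]

theorem lastEnd_gaugeW (a a' : Ept κ) (W : List (Block Γ κ)) :
    lastEnd a (gaugeW σ a' W) = lastEnd a W := by
  induction W generalizing a a' with
  | nil => rfl
  | cons b t ih =>
    simp only [gaugeW, lastEnd]
    exact ih _ _

theorem recs_gaugeW (a : Ept κ) (W : List (Block Γ κ)) :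
    recs a (gaugeW σ a W) = (recs a W).map (gaugeRec σ) := by
  induction W generalizing a with
  | nil => rfl
  | cons b t ih =>
    simp only [gaugeW, recs, List.map_cons]
    congr 1
    exact ih _

theorem useRecs_gauge (W : ι → List (Block Γ κ)) (u : Use Γ κ ι) :
    useRecs (gaugeFam σ W) (gaugeUse σ W u) = (useRecs W u).map (gaugeRec σ) := by
  simp only [useRecs, gaugeFam, gaugeUse, lastEnd_gaugeW, recs_gaugeW, List.map_append,
    List.map_cons]
  rfl

theorem allRecs_gauge (W : ι → List (Block Γ κ)) (uses : List (Use Γ κ ι)) :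
    allRecs (gaugeFam σ W) (uses.map (gaugeUse σ W)) = (allRecs W uses).map (gaugeRec σ) := by
  induction uses with
  | nil => rfl
  | cons u t ih =>
    simp only [allRecs, List.map_cons, List.flatMap_cons, List.map_append] at ih ⊢
    rw [ih, useRecs_gauge]

theorem allBlocks_gauge (W : ι → List (Block Γ κ)) (uses : List (Use Γ κ ι)) :
    (allBlocks (gaugeFam σ W) (uses.map (gaugeUse σ W))).map (fun b => b.2) =
      (allBlocks W uses).map (fun b => b.2) := by
  induction uses with
  | nil => rfl
  | cons u t ih =>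
    simp only [allBlocks, List.map_cons, List.flatMap_cons, List.map_append] at ih ⊢
    rw [ih]
    simp [gaugeFam, gaugeUse, gaugeW_shape]

/-- A gauge move: if a certificate is not tight, there is a certificate of the same element,
with the same exponent vectors, of strictly smaller complexity. -/
theorem gauge_move (W : ι → List (Block Γ κ)) (uses : List (Use Γ κ ι)) (g : Γ)
    (hval : (Monoid.Coprod.inl g : Monoid.Coprod Γ (FreeGroup κ)) = cEval W uses)
    (hT : ¬ TightL (allRecs W uses)) :
    ∃ (W' : ι → List (Block Γ κ)) (uses' : List (Use Γ κ ι)),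
      (Monoid.Coprod.inl g : Monoid.Coprod Γ (FreeGroup κ)) = cEval W' uses' ∧
      (∀ i, wExp (W' i) = wExp (W i)) ∧ mu W' uses' < mu W uses := by
  obtain ⟨σ, hσ, hlt⟩ := exists_gauge (allRecs W uses) hT
  refine ⟨gaugeFam σ W, uses.map (gaugeUse σ W), ?_, ?_, ?_⟩
  · rw [← gaugeHom_cEval σ hσ, ← hval, gaugeHom_inl]
  · intro i
    exact wExp_gaugeW σ _ _
  · unfold mu
    have h1 : (allBlocks (gaugeFam σ W) (uses.map (gaugeUse σ W))).map (fun b => b.2.1) =
        (allBlocks W uses).map (fun b => b.2.1) := by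
      have h := congrArg (List.map (fun x : κ × Bool => x.1)) (allBlocks_gauge σ W uses)
      rw [List.map_map, List.map_map] at h
      exact h
    rw [h1, allRecs_gauge]
    apply muL_lt_of_ntCount_lt
    · simp
    · exact hlt

end Gauge

end Vale.Agent.Lib.P174
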