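import Mathlib

namespace Vale.Agent.Lib.P174

open Matrix

/-- The augmentation of the rational group algebra. -/
noncomputable def aug (Q : Type*) [CommGroup Q] : MonoidAlgebra ℚ Q →ₐ[ℚ] ℚ :=
  MonoidAlgebra.lift ℚ ℚ Q 1

theorem aug_of {Q : Type*} [CommGroup Q] (q : Q) : aug Q (MonoidAlgebra.of ℚ Q q) = 1 := by
  simp [aug]

theorem aug_single {Q : Type*} [CommGroup Q] (q : Q) (r : ℚ) :
    aug Q (MonoidAlgebra.single q r) = r := by
  simp [aug]

theorem vecMul_eq_zero_of_aug {Q : Type*} [CommGroup Q] [NoZeroDivisors (MonoidAlgebra ℚ Q)]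
    {m n : ℕ} (J : Matrix (Fin m) (Fin n) (MonoidAlgebra ℚ Q)) (A : Matrix (Fin m) (Fin n) ℚ)
    (B : Matrix (Fin n) (Fin m) ℚ) (hJ : ∀ i j, aug Q (J i j) = A i j) (hAB : A * B = 1)
    (L : Fin m → MonoidAlgebra ℚ Q) (hL : L ᵥ* J = 0) : L = 0 := by
  let B' : Matrix (Fin n) (Fin m) (MonoidAlgebra ℚ Q) := B.map (algebraMap ℚ (MonoidAlgebra ℚ Q))
  let D : Matrix (Fin m) (Fin m) (MonoidAlgebra ℚ Q) := J * B'
  have h1 : L ᵥ* D = 0 := by
    simp only [D]
    rw [← Matrix.vecMul_vecMul, hL, Matrix.zero_vecMul]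
  have h2 : D.det • L = 0 := by
    have h3 : L ᵥ* (D * D.adjugate) = 0 := by
      rw [← Matrix.vecMul_vecMul, h1, Matrix.zero_vecMul]
    rw [Matrix.mul_adjugate, Matrix.vecMul_smul, Matrix.vecMul_one] at h3
    exact h3
  have hdet : D.det ≠ 0 := by
    intro h0
    have h4 : (aug Q) D.det = 1 := by
      rw [AlgHom.map_det, AlgHom.mapMatrix_apply]
      have h5 : D.map (aug Q) = 1 := by
        have hJ' : J.map (aug Q) = A := by
          ext i j
          simp [hJ]
        have hB' : B'.map (aug Q) = B := by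
          ext i j
          simp only [B', Matrix.map_apply]
          exact AlgHom.commutes (aug Q) (B i j)
        simp only [D]
        rw [Matrix.map_mul, hJ', hB', hAB]
      rw [h5, Matrix.det_one]
    rw [h0, map_zero] at h4
    exact zero_ne_one h4
  funext i
  have h6 := congrFun h2 i
  simp only [Pi.smul_apply, smul_eq_mul, Pi.zero_apply, mul_eq_zero] at h6
  exact h6.resolve_left hdet

theorem linearIndependent_translates {Q : Type*} [CommGroup Q]
    [NoZeroDivisors (MonoidAlgebra ℚ Q)]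
    {m n : ℕ} (J : Matrix (Fin m) (Fin n) (MonoidAlgebra ℚ Q)) (A : Matrix (Fin m) (Fin n) ℚ)
    (B : Matrix (Fin n) (Fin m) ℚ) (hJ : ∀ i j, aug Q (J i j) = A i j) (hAB : A * B = 1) :
    LinearIndependent ℚ (fun p : Fin m × Q => MonoidAlgebra.of ℚ Q p.2 • J p.1) := by
  classical
  rw [linearIndependent_iff]
  intro l hl
  let Ξ : ((Fin m × Q) →₀ ℚ) →ₗ[ℚ] (Fin m → MonoidAlgebra ℚ Q) :=
    Finsupp.linearCombination ℚ
      (fun p : Fin m × Q => Pi.single p.1 (MonoidAlgebra.of ℚ Q p.2))
  have h1 : ∀ l : (Fin m × Q) →₀ ℚ,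
      Finsupp.linearCombination ℚ (fun p : Fin m × Q => MonoidAlgebra.of ℚ Q p.2 • J p.1) l
        = (Ξ l) ᵥ* J := by
    intro l
    induction l using Finsupp.induction_linear with
    | zero => simp
    | add f g hf hg => rw [map_add, map_add, hf, hg, Matrix.add_vecMul]
    | single p c =>
      simp only [Ξ, Finsupp.linearCombination_single]
      rw [Matrix.smul_vecMul, Matrix.single_vecMul]
      rfl
  have h2 : Ξ l = 0 := vecMul_eq_zero_of_aug J A B hJ hAB _ (by rw [← h1, hl])
  have h3 : ∀ (l : (Fin m × Q) →₀ ℚ) (p : Fin m × Q), (Ξ l p.1).coeff p.2 = l p := by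
    intro l p
    induction l using Finsupp.induction_linear with
    | zero => simp
    | add f g hf hg =>
      rw [map_add, Pi.add_apply, MonoidAlgebra.coeff_add, Finsupp.add_apply, hf, hg,
        Finsupp.add_apply]
    | single p' c =>
      simp only [Ξ, Finsupp.linearCombination_single, Pi.smul_apply, MonoidAlgebra.coeff_smul,
        Finsupp.smul_apply, smul_eq_mul]
      by_cases h : p' = p
      · subst h
        simp [MonoidAlgebra.of_apply]
      · rw [Finsupp.single_eq_of_ne (Ne.symm h)]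
        by_cases h1 : p'.1 = p.1
        · have h2 : p'.2 ≠ p.2 := fun h2 => h (Prod.ext h1 h2)
          rw [← h1]
          simp [MonoidAlgebra.of_apply, Finsupp.single_eq_of_ne (Ne.symm h2)]
        · simp [Pi.single_eq_of_ne (Ne.symm h1)]
  ext p
  rw [← h3, h2]
  simp

end Vale.Agent.Lib.P174
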