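import Mathlib

namespace Vale.Agent.Lib.P174

/-- Functoriality of the regular wreath product in the fibre group. -/
def wrMap {X Y Q : Type*} [Group X] [Group Y] [Group Q] (f : X →* Y) :
    RegularWreathProduct X Q →* RegularWreathProduct Y Q where
  toFun x := ⟨fun q => f (x.left q), x.right⟩
  map_one' := by ext <;> simp
  map_mul' x y := by ext <;> simp

@[simp] theorem wrMap_left {X Y Q : Type*} [Group X] [Group Y] [Group Q] (f : X →* Y)
    (x : RegularWreathProduct X Q) (q : Q) : (wrMap f x).left q = f (x.left q) := rfl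

@[simp] theorem wrMap_right {X Y Q : Type*} [Group X] [Group Y] [Group Q] (f : X →* Y)
    (x : RegularWreathProduct X Q) : (wrMap f x).right = x.right := rfl

/-- A set-theoretic choice of elements of `G` compatible with translation by the image of `ψ`. -/
theorem exists_section {G Q : Type*} [Group G] [CommGroup Q] (ψ : G →* Q) :
    ∃ s : Q → G, ∀ (g : G) (q : Q), ψ (s (ψ g * q)) = ψ g * ψ (s q) := by
  classical
  let H : Subgroup Q := ψ.range
  let rep : Q → Q := fun q => ((q : Q ⧸ H)).out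
  have hrep : ∀ q : Q, ∃ g : G, ψ g = q * (rep q)⁻¹ := by
    intro q
    obtain ⟨h, hh⟩ := QuotientGroup.mk_out_eq_mul H q
    obtain ⟨g, hg⟩ := h.2
    refine ⟨g⁻¹, ?_⟩
    simp only [rep]
    rw [hh, map_inv, hg]
    simp
  choose s hs using hrep
  refine ⟨s, ?_⟩
  intro g q
  rw [hs, hs]
  have : rep (ψ g * q) = rep q := by
    simp only [rep]
    congr 1
    rw [QuotientGroup.eq]
    have h1 : (ψ g * q)⁻¹ * q = (ψ g)⁻¹ := by
      rw [mul_comm (ψ g) q, mul_inv_rev, mul_assoc, inv_mul_cancel, mul_one]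
    rw [h1]
    exact H.inv_mem ⟨g, rfl⟩
  rw [this, mul_assoc]

/-- The Kaloujnine-Krasner embedding of `G` into the wreath product of `ker ψ` by `Q`. -/
def kk {G Q : Type*} [Group G] [CommGroup Q] (ψ : G →* Q) (s : Q → G)
    (hs : ∀ (g : G) (q : Q), ψ (s (ψ g * q)) = ψ g * ψ (s q)) :
    G →* RegularWreathProduct ψ.ker Q where
  toFun g := ⟨fun q => ⟨(s q)⁻¹ * g * s ((ψ g)⁻¹ * q), by
    rw [MonoidHom.mem_ker, map_mul, map_mul, map_inv]
    have h := hs g ((ψ g)⁻¹ * q)
    rw [mul_inv_cancel_left] at h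
    rw [h]
    simp [mul_assoc]⟩, ψ g⟩
  map_one' := by
    ext q
    · simp
    · simp
  map_mul' g h := by
    ext q
    · simp [mul_assoc]
    · simp

/-- The congruence rule of `kk`, used here once so that it is generated in this file and shared
by all later files. -/
theorem kk_congr_once {G Q : Type*} [Group G] [CommGroup Q] (ψ : G →* Q) (s t : Q → G)
    (e : s = t) (hs : ∀ (g : G) (q : Q), ψ (s (ψ g * q)) = ψ g * ψ (s q)) :
    kk ψ s hs = kk ψ t (e ▸ hs) :=
  kk.congr_simp ψ s t e hs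

@[simp] theorem kk_right {G Q : Type*} [Group G] [CommGroup Q] (ψ : G →* Q) (s : Q → G)
    (hs : ∀ (g : G) (q : Q), ψ (s (ψ g * q)) = ψ g * ψ (s q)) (g : G) :
    (kk ψ s hs g).right = ψ g := rfl

theorem kk_left {G Q : Type*} [Group G] [CommGroup Q] (ψ : G →* Q) (s : Q → G)
    (hs : ∀ (g : G) (q : Q), ψ (s (ψ g * q)) = ψ g * ψ (s q)) (g : G) (q : Q) :
    (((kk ψ s hs g).left q : ψ.ker) : G) = (s q)⁻¹ * g * s ((ψ g)⁻¹ * q) := rfl

theorem kk_eq_one {G Q : Type*} [Group G] [CommGroup Q] (ψ : G →* Q) (s : Q → G)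
    (hs : ∀ (g : G) (q : Q), ψ (s (ψ g * q)) = ψ g * ψ (s q)) (g : G)
    (h1 : ψ g = 1) (h2 : (kk ψ s hs g).left 1 = 1) : g = 1 := by
  have h3 := congrArg (Subtype.val : ψ.ker → G) h2
  rw [kk_left, h1] at h3
  simp only [inv_one, one_mul, OneMemClass.coe_one] at h3
  have h4 : g = s 1 * ((s 1)⁻¹ * g * s 1) * (s 1)⁻¹ := by group
  rw [h4, h3]
  group

end Vale.Agent.Lib.P174
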