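import Mathlib
import Vale.Agent.Lib.P174.Words
import Vale.Agent.Lib.P174.Records
import Vale.Agent.Lib.P174.Wreath

namespace Vale.Agent.Lib.P174

open Monoid

universe u

section WreathLemmas

variable {D Q : Type*} [Group D] [Group Q]

theorem wr_mul_left (a b : RegularWreathProduct D Q) (x : Q) :
    (a * b).left x = a.left x * b.left (a.right⁻¹ * x) := rfl

theorem wr_inv_left (a : RegularWreathProduct D Q) (x : Q) :
    a⁻¹.left x = (a.left (a.right * x))⁻¹ := rfl

theorem wr_one_left (x : Q) : (1 : RegularWreathProduct D Q).left x = 1 := rfl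

theorem wr_pw_left (e : Bool) (Y : RegularWreathProduct D Q) (hY : Y.right = 1) (x : Q) :
    (pw e Y).left x = pw e (Y.left x) := by
  cases e
  · simp [pw, wr_inv_left, hY]
  · simp [pw]

theorem wr_pw_right (e : Bool) (Y : RegularWreathProduct D Q) (hY : Y.right = 1) :
    (pw e Y).right = 1 := by
  cases e
  · simp [pw, hY]
  · simp [pw, hY]

theorem wr_conj_left (e : Bool) (X Y : RegularWreathProduct D Q) (hY : Y.right = 1) :
    (X * pw e Y * X⁻¹).left 1 = X.left 1 * pw e (Y.left (X.right⁻¹)) * (X.left 1)⁻¹ := by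
  rw [wr_mul_left, wr_mul_left, wr_inv_left, wr_pw_left e Y hY]
  simp [wr_pw_right e Y hY]

theorem wr_conj_right (e : Bool) (X Y : RegularWreathProduct D Q) (hY : Y.right = 1) :
    (X * pw e Y * X⁻¹).right = 1 := by
  simp [wr_pw_right e Y hY]

end WreathLemmas

section Lift

variable {Γ : Type u} [Group Γ] {Q : Type} [CommGroup Q] (ψ : Γ →* Q) (s : Q → Γ)
  (hs : ∀ (g : Γ) (q : Q), ψ (s (ψ g * q)) = ψ g * ψ (s q)) {κ ι : Type} (v : κ → Q)

/-- The universal lift of the free product to the wreath product. -/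
noncomputable def thetaK :
    Monoid.Coprod Γ (FreeGroup κ) →*
      RegularWreathProduct (Monoid.Coprod ψ.ker (FreeGroup (κ × Q))) Q :=
  Monoid.Coprod.lift ((wrMap Monoid.Coprod.inl).comp (kk ψ s hs))
    (FreeGroup.lift fun j => ⟨fun q => Monoid.Coprod.inr (FreeGroup.of (j, q)), v j⟩)

/-- The level shift of a block. -/
def shift (b : Block Γ κ) : Q := ψ b.1 * pw b.2.2 (v b.2.1)

/-- The level shift of a word. -/
def wShift (W : List (Block Γ κ)) : Q := (W.map (shift ψ v)).prod

@[simp] theorem wShift_nil : wShift ψ v ([] : List (Block Γ κ)) = 1 := rfl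

@[simp] theorem wShift_cons (b : Block Γ κ) (t : List (Block Γ κ)) :
    wShift ψ v (b :: t) = shift ψ v b * wShift ψ v t := by
  simp [wShift]

/-- The lift of a block read at level `p`. -/
def liftBlock (p : Q) (b : Block Γ κ) : Block ψ.ker (κ × Q) :=
  ((kk ψ s hs b.1).left p,
    (b.2.1, if b.2.2 then (ψ b.1)⁻¹ * p else v b.2.1 * ((ψ b.1)⁻¹ * p)), b.2.2)

/-- The lift of a word read from level `p`. -/
def liftWord : Q → List (Block Γ κ) → List (Block ψ.ker (κ × Q))
  | _, [] => []
  | p, b :: t => liftBlock ψ s hs v p b :: liftWord ((shift ψ v b)⁻¹ * p) t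

theorem thetaK_inl_left (c : Γ) (p : Q) :
    (thetaK ψ s hs v (Monoid.Coprod.inl c)).left p = Monoid.Coprod.inl ((kk ψ s hs c).left p) := by
  simp [thetaK]

theorem thetaK_inl_right (c : Γ) :
    (thetaK ψ s hs v (Monoid.Coprod.inl c)).right = ψ c := by
  simp [thetaK]

theorem thetaK_bEval_left (p : Q) (b : Block Γ κ) :
    (thetaK ψ s hs v (bEval b)).left p = bEval (liftBlock ψ s hs v p b) := by
  obtain ⟨c, j, e⟩ := b
  cases e
  · simp [bEval, pw, thetaK, liftBlock, wr_mul_left, wr_inv_left]
  · simp [bEval, pw, thetaK, liftBlock, wr_mul_left]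

theorem thetaK_bEval_right (b : Block Γ κ) :
    (thetaK ψ s hs v (bEval b)).right = shift ψ v b := by
  obtain ⟨c, j, e⟩ := b
  cases e
  · simp [bEval, pw, thetaK, shift]
  · simp [bEval, pw, thetaK, shift]

theorem thetaK_wEval_right (W : List (Block Γ κ)) :
    (thetaK ψ s hs v (wEval W)).right = wShift ψ v W := by
  induction W with
  | nil => simp
  | cons b t ih =>
    rw [wEval_cons, map_mul, RegularWreathProduct.mul_right, ih, thetaK_bEval_right, wShift_cons]

theorem thetaK_wEval_left (W : List (Block Γ κ)) (p : Q) :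
    (thetaK ψ s hs v (wEval W)).left p = wEval (liftWord ψ s hs v p W) := by
  induction W generalizing p with
  | nil => simp [liftWord, wr_one_left]
  | cons b t ih =>
    rw [wEval_cons, map_mul, wr_mul_left, thetaK_bEval_left, thetaK_bEval_right, ih]
    simp [liftWord]

/-- The lifted family of relators. -/
def liftFam (W : ι → List (Block Γ κ)) : ι × Q → List (Block ψ.ker (κ × Q)) :=
  fun x => liftWord ψ s hs v x.2 (W x.1)

/-- The lifted use. -/
def liftUse (u : Use Γ κ ι) : Use ψ.ker (κ × Q) (ι × Q) :=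
  ⟨liftWord ψ s hs v 1 u.U, (kk ψ s hs u.d).left ((wShift ψ v u.U)⁻¹),
    (u.i, (ψ u.d)⁻¹ * (wShift ψ v u.U)⁻¹), u.e⟩

theorem thetaK_useEval (W : ι → List (Block Γ κ)) (u : Use Γ κ ι)
    (hW : wShift ψ v (W u.i) = 1) :
    (thetaK ψ s hs v (useEval W u)).left 1 =
        useEval (liftFam ψ s hs v W) (liftUse ψ s hs v u) ∧
      (thetaK ψ s hs v (useEval W u)).right = 1 := by
  have hY : (thetaK ψ s hs v (wEval (W u.i))).right = 1 := by
    rw [thetaK_wEval_right, hW]
  have hX1 : (thetaK ψ s hs v (wEval u.U * Monoid.Coprod.inl u.d)).left 1 =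
      wEval (liftWord ψ s hs v 1 u.U) *
        Monoid.Coprod.inl ((kk ψ s hs u.d).left ((wShift ψ v u.U)⁻¹)) := by
    rw [map_mul, wr_mul_left, thetaK_wEval_left, thetaK_wEval_right, thetaK_inl_left, mul_one]
  have hX2 : (thetaK ψ s hs v (wEval u.U * Monoid.Coprod.inl u.d)).right =
      wShift ψ v u.U * ψ u.d := by
    rw [map_mul, RegularWreathProduct.mul_right, thetaK_wEval_right, thetaK_inl_right]
  unfold useEval
  rw [map_mul, map_mul, map_inv, map_pw]
  constructor
  · rw [wr_conj_left _ _ _ hY, hX1, hX2, thetaK_wEval_left, mul_inv_rev]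
    rfl
  · exact wr_conj_right _ _ _ hY

theorem thetaK_cEval (W : ι → List (Block Γ κ)) (uses : List (Use Γ κ ι))
    (hW : ∀ i, wShift ψ v (W i) = 1) :
    (thetaK ψ s hs v (cEval W uses)).left 1 =
        cEval (liftFam ψ s hs v W) (uses.map (liftUse ψ s hs v)) ∧
      (thetaK ψ s hs v (cEval W uses)).right = 1 := by
  induction uses with
  | nil => simp [wr_one_left]
  | cons u t ih =>
    obtain ⟨h1, h2⟩ := thetaK_useEval ψ s hs v W u (hW u.i)
    rw [cEval_cons, map_mul, List.map_cons, cEval_cons]
    constructor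
    · rw [wr_mul_left, h1, h2, inv_one, one_mul, ih.1]
    · rw [RegularWreathProduct.mul_right, h2, ih.2, one_mul]

/-- The lift of a valid certificate is a valid certificate for the lifted element. -/
theorem lift_valid (W : ι → List (Block Γ κ)) (uses : List (Use Γ κ ι)) (g : Γ)
    (hval : (Monoid.Coprod.inl g : Monoid.Coprod Γ (FreeGroup κ)) = cEval W uses)
    (hW : ∀ i, wShift ψ v (W i) = 1) :
    ψ g = 1 ∧
      (Monoid.Coprod.inl ((kk ψ s hs g).left 1) : Monoid.Coprod ψ.ker (FreeGroup (κ × Q))) =
        cEval (liftFam ψ s hs v W) (uses.map (liftUse ψ s hs v)) := by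
  obtain ⟨h1, h2⟩ := thetaK_cEval ψ s hs v W uses hW
  rw [← hval] at h1 h2
  constructor
  · rw [← thetaK_inl_right ψ s hs v g]
    exact h2
  · rw [← thetaK_inl_left ψ s hs v g]
    exact h1

theorem liftWord_length (p : Q) (W : List (Block Γ κ)) :
    (liftWord ψ s hs v p W).length = W.length := by
  induction W generalizing p with
  | nil => rfl
  | cons b t ih => simp [liftWord, ih]

theorem liftWord_vars (p : Q) (W : List (Block Γ κ)) :
    (liftWord ψ s hs v p W).map (fun b => b.2.1.1) = W.map (fun b => b.2.1) := by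
  induction W generalizing p with
  | nil => rfl
  | cons b t ih => simp [liftWord, liftBlock, ih]

theorem allBlocks_lift_vars (W : ι → List (Block Γ κ)) (uses : List (Use Γ κ ι)) :
    (allBlocks (liftFam ψ s hs v W) (uses.map (liftUse ψ s hs v))).map (fun b => b.2.1.1) =
      (allBlocks W uses).map (fun b => b.2.1) := by
  induction uses with
  | nil => rfl
  | cons u t ih =>
    simp only [allBlocks, List.map_cons, List.flatMap_cons, List.map_append] at ih ⊢
    rw [ih]
    simp [liftFam, liftUse, liftWord_vars]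

theorem allBlocks_lift_length (W : ι → List (Block Γ κ)) (uses : List (Use Γ κ ι)) :
    (allBlocks (liftFam ψ s hs v W) (uses.map (liftUse ψ s hs v))).length =
      (allBlocks W uses).length := by
  have h := congrArg List.length (allBlocks_lift_vars ψ s hs v W uses)
  simpa using h

theorem allRecs_lift_length (W : ι → List (Block Γ κ)) (uses : List (Use Γ κ ι)) :
    (allRecs (liftFam ψ s hs v W) (uses.map (liftUse ψ s hs v))).length =
      (allRecs W uses).length := by
  rw [allRecs_length, allRecs_length, allBlocks_lift_length]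
  simp

end Lift

end Vale.Agent.Lib.P174
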