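import Mathlib
import Vale.Agent.Lib.P174.Words
import Vale.Agent.Lib.P174.Records
import Vale.Agent.Lib.P174.Wreath
import Vale.Agent.Lib.P174.Indep
import Vale.Agent.Lib.P174.Lift

namespace Vale.Agent.Lib.P174

open Monoid Matrix

universe u

section FiniteIndex

variable {m n : Type} [Fintype m] [Fintype n] [DecidableEq m] [DecidableEq n]

/-- A rational matrix with linearly independent rows has a right inverse (finite index types). -/
theorem exists_right_inverse' (A : Matrix m n ℚ)
    (hA : LinearIndependent ℚ A.row) : ∃ B : Matrix n m ℚ, A * B = 1 := by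
  have hinj : Function.Injective (Matrix.vecMulLinear A) := by
    have := (Matrix.vecMul_injective_iff (M := A)).mpr hA
    exact this
  obtain ⟨g, hg⟩ := LinearMap.exists_leftInverse_of_injective (Matrix.vecMulLinear A)
    (LinearMap.ker_eq_bot.mpr hinj)
  refine ⟨(LinearMap.toMatrix' g)ᵀ, ?_⟩
  rw [Matrix.ext_iff_vecMul]
  intro x
  rw [← Matrix.vecMul_vecMul, Matrix.vecMul_transpose, Matrix.vecMul_one]
  have h1 : LinearMap.toMatrix' g *ᵥ (x ᵥ* A) = g (x ᵥ* A) := by
    rw [← Matrix.toLin'_apply, Matrix.toLin'_toMatrix']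
  rw [h1]
  have h2 := LinearMap.congr_fun hg x
  simpa using h2

theorem vecMul_eq_zero_of_aug' {Q : Type*} [CommGroup Q] [NoZeroDivisors (MonoidAlgebra ℚ Q)]
    (J : Matrix m n (MonoidAlgebra ℚ Q)) (A : Matrix m n ℚ)
    (B : Matrix n m ℚ) (hJ : ∀ i j, aug Q (J i j) = A i j) (hAB : A * B = 1)
    (L : m → MonoidAlgebra ℚ Q) (hL : L ᵥ* J = 0) : L = 0 := by
  let B' : Matrix n m (MonoidAlgebra ℚ Q) := B.map (algebraMap ℚ (MonoidAlgebra ℚ Q))
  let D : Matrix m m (MonoidAlgebra ℚ Q) := J * B'
  have h1 : L ᵥ* D = 0 := by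
    simp only [D]
    rw [← Matrix.vecMul_vecMul, hL, Matrix.zero_vecMul]
  have h2 : D.det • L = 0 := by
    have h3 : L ᵥ* (D * D.adjugate) = 0 := by
      rw [← Matrix.vecMul_vecMul, h1, Matrix.zero_vecMul]
    rw [Matrix.mul_adjugate, Matrix.vecMul_smul, Matrix.vecMul_one] at h3
    exact h3
  have hdet : D.det ≠ 0 := by
    intro h0
    have h4 : (aug Q) D.det = 1 := by
      rw [AlgHom.map_det, AlgHom.mapMatrix_apply]
      have h5 : D.map (aug Q) = 1 := by
        have hJ' : J.map (aug Q) = A := by
          ext i j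
          simp [hJ]
        have hB' : B'.map (aug Q) = B := by
          ext i j
          simp only [B', Matrix.map_apply]
          exact AlgHom.commutes (aug Q) (B i j)
        simp only [D]
        rw [Matrix.map_mul, hJ', hB', hAB]
      rw [h5, Matrix.det_one]
    rw [h0, map_zero] at h4
    exact zero_ne_one h4
  funext i
  have h6 := congrFun h2 i
  simp only [Pi.smul_apply, smul_eq_mul, Pi.zero_apply, mul_eq_zero] at h6
  exact h6.resolve_left hdet

theorem linearIndependent_translates' {Q : Type*} [CommGroup Q]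
    [NoZeroDivisors (MonoidAlgebra ℚ Q)]
    (J : Matrix m n (MonoidAlgebra ℚ Q)) (A : Matrix m n ℚ)
    (B : Matrix n m ℚ) (hJ : ∀ i j, aug Q (J i j) = A i j) (hAB : A * B = 1) :
    LinearIndependent ℚ (fun p : m × Q => MonoidAlgebra.of ℚ Q p.2 • J p.1) := by
  classical
  rw [linearIndependent_iff]
  intro l hl
  let Ξ : ((m × Q) →₀ ℚ) →ₗ[ℚ] (m → MonoidAlgebra ℚ Q) :=
    Finsupp.linearCombination ℚ
      (fun p : m × Q => Pi.single p.1 (MonoidAlgebra.of ℚ Q p.2))
  have h1 : ∀ l : (m × Q) →₀ ℚ,
      Finsupp.linearCombination ℚ (fun p : m × Q => MonoidAlgebra.of ℚ Q p.2 • J p.1) l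
        = (Ξ l) ᵥ* J := by
    intro l
    induction l using Finsupp.induction_linear with
    | zero => simp
    | add f g hf hg => rw [map_add, map_add, hf, hg, Matrix.add_vecMul]
    | single p c =>
      simp only [Ξ, Finsupp.linearCombination_single]
      rw [Matrix.smul_vecMul, Matrix.single_vecMul]
      rfl
  have h2 : Ξ l = 0 := vecMul_eq_zero_of_aug' J A B hJ hAB _ (by rw [← h1, hl])
  have h3 : ∀ (l : (m × Q) →₀ ℚ) (p : m × Q), (Ξ l p.1).coeff p.2 = l p := by
    intro l p
    induction l using Finsupp.induction_linear with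
    | zero => simp
    | add f g hf hg =>
      rw [map_add, Pi.add_apply, MonoidAlgebra.coeff_add, Finsupp.add_apply, hf, hg,
        Finsupp.add_apply]
    | single p' c =>
      simp only [Ξ, Finsupp.linearCombination_single, Pi.smul_apply, MonoidAlgebra.coeff_smul,
        Finsupp.smul_apply, smul_eq_mul]
      by_cases h : p' = p
      · subst h
        simp [MonoidAlgebra.of_apply]
      · rw [Finsupp.single_eq_of_ne (Ne.symm h)]
        by_cases h1 : p'.1 = p.1
        · have h2 : p'.2 ≠ p.2 := fun h2 => h (Prod.ext h1 h2)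
          rw [← h1]
          simp [MonoidAlgebra.of_apply, Finsupp.single_eq_of_ne (Ne.symm h2)]
        · simp [Pi.single_eq_of_ne (Ne.symm h1)]
  ext p
  rw [← h3, h2]
  simp

end FiniteIndex

/-- Coefficientwise augmentation on finitely supported vectors over the group algebra. -/
noncomputable def augK (κ : Type) (Q : Type) [CommGroup Q] :
    (κ →₀ MonoidAlgebra ℚ Q) →ₗ[ℚ] (κ →₀ ℚ) :=
  Finsupp.mapRange.linearMap (aug Q).toLinearMap

/-- Translates of a family over the group algebra whose augmentations are linearly independent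
are linearly independent over the rationals (arbitrary index types). -/
theorem linearIndependent_translates_inf {Q : Type} [CommGroup Q]
    [NoZeroDivisors (MonoidAlgebra ℚ Q)] {ι κ : Type}
    (J : ι → κ →₀ MonoidAlgebra ℚ Q)
    (hJ : LinearIndependent ℚ (fun i => augK κ Q (J i))) :
    LinearIndependent ℚ (fun p : ι × Q => MonoidAlgebra.of ℚ Q p.2 • J p.1) := by
  classical
  rw [linearIndependent_iff_finset_linearIndependent]
  intro S
  let I₀ : Finset ι := S.image Prod.fst
  let X : ι → κ →₀ ℚ := fun i => augK κ Q (J i)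
  let κ₀ : Finset κ := I₀.biUnion fun i => (X i).support
  let J'' : Matrix I₀ κ₀ (MonoidAlgebra ℚ Q) := fun i j => J i.1 j.1
  let A : Matrix I₀ κ₀ ℚ := fun i j => X i.1 j.1
  have hJA : ∀ i j, aug Q (J'' i j) = A i j := by
    intro i j
    simp [J'', A, X, augK]
  have hA : LinearIndependent ℚ A.row := by
    let ρ : (κ →₀ ℚ) →ₗ[ℚ] (κ₀ → ℚ) := LinearMap.pi fun j => Finsupp.lapply j.1
    have hv : LinearIndependent ℚ (fun i : I₀ => X i.1) := hJ.comp _ Subtype.val_injective
    have hrow : A.row = ρ ∘ (fun i : I₀ => X i.1) := by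
      funext i j
      simp [A, ρ, Matrix.row]
    rw [hrow]
    apply hv.map
    rw [Submodule.disjoint_def]
    intro x hx hx0
    have hsup : x ∈ Finsupp.supported ℚ ℚ (κ₀ : Set κ) := by
      have hle : Submodule.span ℚ (Set.range (fun i : I₀ => X i.1)) ≤
          Finsupp.supported ℚ ℚ (κ₀ : Set κ) := by
        rw [Submodule.span_le]
        rintro _ ⟨i, rfl⟩
        rw [SetLike.mem_coe, Finsupp.mem_supported]
        intro y hy
        simp only [Finset.mem_coe] at hy ⊢
        exact Finset.mem_biUnion.mpr ⟨i.1, i.2, hy⟩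
      exact hle hx
    rw [Finsupp.mem_supported] at hsup
    rw [LinearMap.mem_ker] at hx0
    ext y
    by_cases hy : y ∈ κ₀
    · have h3 := congrFun hx0 ⟨y, hy⟩
      simpa [ρ] using h3
    · have : y ∉ x.support := fun h => hy (by simpa using hsup h)
      simpa using this
  obtain ⟨B, hB⟩ := exists_right_inverse' A hA
  have hfin := linearIndependent_translates' J'' A B hJA hB
  let P : (κ →₀ MonoidAlgebra ℚ Q) →ₗ[ℚ] (κ₀ → MonoidAlgebra ℚ Q) :=
    LinearMap.pi fun j => Finsupp.lapply j.1
  let φ : S → I₀ × Q := fun p => (⟨p.1.1, Finset.mem_image_of_mem _ p.2⟩, p.1.2)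
  have hφ : Function.Injective φ := by
    intro p p' h
    simp only [φ, Prod.mk.injEq, Subtype.mk.injEq] at h
    exact Subtype.ext (Prod.ext h.1 h.2)
  apply LinearIndependent.of_comp P
  have hcomp : P ∘ ((fun p : ι × Q => MonoidAlgebra.of ℚ Q p.2 • J p.1) ∘
      (Subtype.val : S → ι × Q)) =
      (fun p : I₀ × Q => MonoidAlgebra.of ℚ Q p.2 • J'' p.1) ∘ φ := by
    funext p
    funext j
    simp [P, φ, J'']
  rw [hcomp]
  exact hfin.comp φ hφ

section LiftIndep

variable {Γ : Type u} [Group Γ] {Q : Type} [CommGroup Q] (ψ : Γ →* Q) (s : Q → Γ)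
  (hs : ∀ (g : Γ) (q : Q), ψ (s (ψ g * q)) = ψ g * ψ (s q)) {κ ι : Type} (v : κ → Q)

/-- The passage from exponent vectors of the lifted unknowns to vectors over the group algebra. -/
noncomputable def PhiM (κ : Type) (Q : Type) [CommGroup Q] :
    ((κ × Q) →₀ ℚ) →ₗ[ℚ] (κ →₀ MonoidAlgebra ℚ Q) :=
  Finsupp.linearCombination ℚ
    (fun x : κ × Q => Finsupp.single x.1 (MonoidAlgebra.of ℚ Q x.2))

theorem liftBlock_mul (q p : Q) (b : Block Γ κ) :
    (liftBlock ψ s hs v (q * p) b).2.1 =
      ((liftBlock ψ s hs v p b).2.1.1, q * (liftBlock ψ s hs v p b).2.1.2) := by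
  obtain ⟨c, j, e⟩ := b
  cases e
  · simp [liftBlock, mul_left_comm]
  · simp [liftBlock, mul_left_comm]

theorem PhiM_liftWord_mul (q p : Q) (W : List (Block Γ κ)) :
    PhiM κ Q (wExp (liftWord ψ s hs v (q * p) W)) =
      MonoidAlgebra.of ℚ Q q • PhiM κ Q (wExp (liftWord ψ s hs v p W)) := by
  induction W generalizing p with
  | nil => simp [liftWord]
  | cons b t ih =>
    simp only [liftWord, wExp_cons, map_add, smul_add]
    have h1 : (shift ψ v b)⁻¹ * (q * p) = q * ((shift ψ v b)⁻¹ * p) := mul_left_comm _ _ _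
    rw [h1, ih]
    congr 1
    rw [liftBlock_mul]
    simp only [PhiM, Finsupp.linearCombination_single, map_mul, Finsupp.smul_single]
    congr 1
    simp only [smul_eq_mul]
    rw [mul_smul_comm]
    rfl

theorem augK_PhiM_liftWord (p : Q) (W : List (Block Γ κ)) :
    augK κ Q (PhiM κ Q (wExp (liftWord ψ s hs v p W))) = wExp W := by
  induction W generalizing p with
  | nil => simp [liftWord]
  | cons b t ih =>
    simp only [liftWord, wExp_cons, map_add]
    rw [ih]
    congr 1
    have hsingle : ∀ (x : κ × Q) (r : ℚ),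
        augK κ Q (PhiM κ Q (Finsupp.single x r)) = Finsupp.single x.1 r := by
      intro x r
      have h1 : augK κ Q (Finsupp.single x.1 (MonoidAlgebra.of ℚ Q x.2)) =
          Finsupp.single x.1 1 := by
        simp [augK, aug_single]
      simp only [PhiM, Finsupp.linearCombination_single]
      rw [map_smul, h1]
      simp
    rw [hsingle]
    rfl

/-- The exponent vectors of the lifted family are linearly independent. -/
theorem lift_indep [NoZeroDivisors (MonoidAlgebra ℚ Q)] (W : ι → List (Block Γ κ))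
    (hW : LinearIndependent ℚ fun i => wExp (W i)) :
    LinearIndependent ℚ (fun x : ι × Q => wExp (liftFam ψ s hs v W x)) := by
  apply LinearIndependent.of_comp (PhiM κ Q)
  have h1 : (PhiM κ Q) ∘ (fun x : ι × Q => wExp (liftFam ψ s hs v W x)) =
      fun x : ι × Q => MonoidAlgebra.of ℚ Q x.2 •
        (fun i => PhiM κ Q (wExp (liftWord ψ s hs v 1 (W i)))) x.1 := by
    funext x
    have h2 := PhiM_liftWord_mul ψ s hs v x.2 1 (W x.1)
    rw [mul_one] at h2
    simp only [Function.comp_apply, liftFam]
    exact h2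
  have h3 : (fun i => augK κ Q (PhiM κ Q (wExp (liftWord ψ s hs v 1 (W i))))) =
      fun i => wExp (W i) := by
    funext i
    exact augK_PhiM_liftWord ψ s hs v 1 (W i)
  have key := linearIndependent_translates_inf
    (fun i => PhiM κ Q (wExp (liftWord ψ s hs v 1 (W i)))) (by rw [h3]; exact hW)
  rw [h1]
  exact key

end LiftIndep

/-- A linearly independent family of exponent vectors admits values of the unknowns in the
rationals making every relator of level shift zero. -/
theorem exists_shift_solution {Γ : Type u} [Group Γ] {κ ι : Type}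
    (ψ : Γ →* Multiplicative ℚ) (W : ι → List (Block Γ κ))
    (hW : LinearIndependent ℚ fun i => wExp (W i)) :
    ∃ v : κ → Multiplicative ℚ, ∀ i, wShift ψ v (W i) = 1 := by
  let T : (ι →₀ ℚ) →ₗ[ℚ] (κ →₀ ℚ) := Finsupp.linearCombination ℚ (fun i => wExp (W i))
  have hinj : LinearMap.ker T = ⊥ := LinearMap.ker_eq_bot.mpr hW
  obtain ⟨gI, hg⟩ := LinearMap.exists_leftInverse_of_injective T hinj
  let cs : List (Block Γ κ) → ℚ := fun V => (V.map fun b => Multiplicative.toAdd (ψ b.1)).sum
  let φ : (κ →₀ ℚ) →ₗ[ℚ] ℚ := (Finsupp.linearCombination ℚ (fun i => - cs (W i))).comp gI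
  let v : κ → Multiplicative ℚ := fun j => Multiplicative.ofAdd (φ (Finsupp.single j 1))
  have key : ∀ V : List (Block Γ κ),
      Multiplicative.toAdd (wShift ψ v V) = cs V + φ (wExp V) := by
    intro V
    induction V with
    | nil => simp [cs]
    | cons b t ih =>
      rw [wShift_cons, toAdd_mul, ih, wExp_cons, map_add]
      obtain ⟨c, j, e⟩ := b
      cases e
      · have h1 : Finsupp.single j (-1 : ℚ) = - Finsupp.single j 1 := by
          rw [Finsupp.single_neg]
        simp only [shift, pw, cs, v, h1, map_neg, List.map_cons, List.sum_cons, toAdd_mul,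
          toAdd_inv, toAdd_ofAdd, Bool.false_eq_true, if_false]
        ring
      · simp only [shift, pw, cs, v, List.map_cons, List.sum_cons, toAdd_mul,
          toAdd_ofAdd, if_true]
        ring
  refine ⟨v, ?_⟩
  intro i
  apply Multiplicative.toAdd.injective
  rw [key]
  have h1 : gI (wExp (W i)) = Finsupp.single i 1 := by
    have h2 := LinearMap.congr_fun hg (Finsupp.single i 1)
    simpa [T] using h2
  have h3 : φ (wExp (W i)) = - cs (W i) := by
    simp [φ, h1]
  rw [h3]
  simp

end Vale.Agent.Lib.P174
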