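import Mathlib

namespace Vale.Agent.Lib.P174

open Monoid

universe u

section CoprodInj

variable {Γ : Type u} [Group Γ] (H : Subgroup Γ) (κ : Type)

/-- The two groups amalgamated over `H`: the ambient group and `H * F(κ)`. -/
def amalFam (b : Bool) : Type u :=
  match b with
  | true => Γ
  | false => Monoid.Coprod H (FreeGroup κ)

instance amalFamGroup (b : Bool) : Group (amalFam H κ b) :=
  match b with
  | true => inferInstanceAs (Group Γ)
  | false => inferInstanceAs (Group (Monoid.Coprod H (FreeGroup κ)))

/-- The two inclusions of `H`. -/
def amalMap (b : Bool) : H →* amalFam H κ b :=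
  match b with
  | true => H.subtype
  | false => (Monoid.Coprod.inl : H →* Monoid.Coprod H (FreeGroup κ))

theorem amalMap_injective (b : Bool) : Function.Injective (amalMap H κ b) := by
  cases b
  · exact Monoid.Coprod.inl_injective
  · exact H.subtype_injective

/-- Free products with a fixed free group preserve the injectivity of a subgroup inclusion. -/
theorem coprod_map_subtype_injective :
    Function.Injective (Monoid.Coprod.map H.subtype (MonoidHom.id (FreeGroup κ))) := by
  let P := Monoid.PushoutI (amalMap H κ)
  let o1 : Γ →* P := Monoid.PushoutI.of (φ := amalMap H κ) true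
  let o0 : Monoid.Coprod H (FreeGroup κ) →* P := Monoid.PushoutI.of (φ := amalMap H κ) false
  let Ψ : Monoid.Coprod Γ (FreeGroup κ) →* P :=
    Monoid.Coprod.lift o1 (o0.comp Monoid.Coprod.inr)
  have hcomp : Ψ.comp (Monoid.Coprod.map H.subtype (MonoidHom.id (FreeGroup κ))) = o0 := by
    apply Monoid.Coprod.hom_ext
    · ext h
      simp only [MonoidHom.comp_apply, Monoid.Coprod.map_apply_inl, Ψ, Monoid.Coprod.lift_apply_inl]
      have h1 := Monoid.PushoutI.of_apply_eq_base (amalMap H κ) true h
      have h2 := Monoid.PushoutI.of_apply_eq_base (amalMap H κ) false h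
      exact h1.trans h2.symm
    · ext x
      simp [Ψ]
  have hinj : Function.Injective o0 :=
    Monoid.PushoutI.of_injective (amalMap_injective H κ) false
  have h3 : Function.Injective
      (Ψ ∘ (Monoid.Coprod.map H.subtype (MonoidHom.id (FreeGroup κ)))) := by
    have : (Ψ ∘ (Monoid.Coprod.map H.subtype (MonoidHom.id (FreeGroup κ)))) = o0 := by
      funext x
      exact DFunLike.congr_fun hcomp x
    rw [this]
    exact hinj
  exact Function.Injective.of_comp h3

end CoprodInj

end Vale.Agent.Lib.P174
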