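import Mathlib
import Vale.Agent.Lib.P174.Words
import Vale.Agent.Lib.P174.Records
import Vale.Agent.Lib.P174.CoprodInj

namespace Vale.Agent.Lib.P174

open Monoid

universe u

section Restrict

variable {Γ : Type u} [Group Γ] {κ ι : Type} (Γ₀ : Subgroup Γ)

open Classical in
/-- A set-theoretic retraction of a group onto a subgroup. -/
noncomputable def retr (c : Γ) : Γ₀ := if h : c ∈ Γ₀ then ⟨c, h⟩ else 1

theorem retr_of_mem {c : Γ} (h : c ∈ Γ₀) : ((retr Γ₀ c : Γ₀) : Γ) = c := by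
  simp [retr, h]

theorem retr_one : retr Γ₀ (1 : Γ) = 1 := by
  simp [retr]

/-- Retraction of the coefficients of a word. -/
noncomputable def retrW (W : List (Block Γ κ)) : List (Block Γ₀ κ) :=
  W.map fun b => (retr Γ₀ b.1, b.2)

/-- Retraction of the coefficients of a use. -/
noncomputable def retrUse (u : Use Γ κ ι) : Use Γ₀ κ ι :=
  ⟨retrW Γ₀ u.U, retr Γ₀ u.d, u.i, u.e⟩

/-- Retraction of the syllable of a record. -/
noncomputable def retrRec (r : Rcd Γ κ) : Rcd Γ₀ κ := (r.1, r.2.1, retr Γ₀ r.2.2)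

/-- The inclusion of free products induced by a subgroup inclusion. -/
def inclC : Monoid.Coprod Γ₀ (FreeGroup κ) →* Monoid.Coprod Γ (FreeGroup κ) :=
  Monoid.Coprod.map Γ₀.subtype (MonoidHom.id (FreeGroup κ))

theorem inclC_wEval (W : List (Block Γ κ)) (h : ∀ b ∈ W, b.1 ∈ Γ₀) :
    inclC Γ₀ (wEval (retrW Γ₀ W)) = wEval W := by
  induction W with
  | nil => simp [retrW]
  | cons b t ih =>
    have hb : b.1 ∈ Γ₀ := h b (by simp)
    have ht := ih (fun b' hb' => h b' (by simp [hb']))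
    simp only [retrW, List.map_cons, wEval_cons, map_mul] at ht ⊢
    rw [ht]
    congr 1
    simp [bEval, inclC, retr_of_mem Γ₀ hb]

theorem inclC_useEval (W : ι → List (Block Γ κ)) (u : Use Γ κ ι)
    (hU : ∀ b ∈ u.U, b.1 ∈ Γ₀) (hd : u.d ∈ Γ₀) (hW : ∀ b ∈ W u.i, b.1 ∈ Γ₀) :
    inclC Γ₀ (useEval (fun i => retrW Γ₀ (W i)) (retrUse Γ₀ u)) = useEval W u := by
  unfold useEval
  simp only [map_mul, map_inv, map_pw, retrUse, inclC_wEval Γ₀ _ hU, inclC_wEval Γ₀ _ hW]
  have h : inclC Γ₀ (Monoid.Coprod.inl (retr Γ₀ u.d) : Monoid.Coprod Γ₀ (FreeGroup κ)) =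
      Monoid.Coprod.inl u.d := by
    simp [inclC, retr_of_mem Γ₀ hd]
  rw [h]

theorem inclC_cEval (W : ι → List (Block Γ κ)) (uses : List (Use Γ κ ι))
    (h : ∀ u ∈ uses, (∀ b ∈ u.U, b.1 ∈ Γ₀) ∧ u.d ∈ Γ₀ ∧ (∀ b ∈ W u.i, b.1 ∈ Γ₀)) :
    inclC Γ₀ (cEval (fun i => retrW Γ₀ (W i)) (uses.map (retrUse Γ₀))) = cEval W uses := by
  induction uses with
  | nil => simp
  | cons u t ih =>
    obtain ⟨h1, h2, h3⟩ := h u (by simp)
    rw [List.map_cons, cEval_cons, cEval_cons, map_mul, inclC_useEval Γ₀ W u h1 h2 h3,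
      ih (fun u' hu' => h u' (by simp [hu']))]

/-- Validity of the restricted certificate. -/
theorem restrict_valid (W : ι → List (Block Γ κ)) (uses : List (Use Γ κ ι)) (g : Γ)
    (hval : (Monoid.Coprod.inl g : Monoid.Coprod Γ (FreeGroup κ)) = cEval W uses)
    (hS : ∀ r ∈ allRecs W uses, r.2.2 ∈ Γ₀) (hg : g ∈ Γ₀) :
    (Monoid.Coprod.inl (⟨g, hg⟩ : Γ₀) : Monoid.Coprod Γ₀ (FreeGroup κ)) =
      cEval (fun i => retrW Γ₀ (W i)) (uses.map (retrUse Γ₀)) := by
  apply coprod_map_subtype_injective Γ₀ κ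
  have h1 := inclC_cEval Γ₀ W uses (by
    intro u hu
    obtain ⟨h1, h2, h3⟩ := coeff_mem_allRecs W uses u hu
    refine ⟨?_, ?_, ?_⟩
    · intro b hb
      obtain ⟨r, hr, hr2⟩ := h1 b hb
      rw [← hr2]
      exact hS r hr
    · obtain ⟨r, hr, hr2⟩ := h2
      rw [← hr2]
      exact hS r hr
    · intro b hb
      obtain ⟨r, hr, hr2⟩ := h3 b hb
      rw [← hr2]
      exact hS r hr)
  unfold inclC at h1
  rw [h1, ← hval]
  simp

theorem retrW_shape (W : List (Block Γ κ)) :
    (retrW Γ₀ W).map (fun b => b.2) = W.map (fun b => b.2) := by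
  simp [retrW]

theorem wExp_retrW (W : List (Block Γ κ)) : wExp (retrW Γ₀ W) = wExp W := by
  induction W with
  | nil => rfl
  | cons b t ih =>
    simp only [retrW, List.map_cons, wExp_cons] at ih ⊢
    rw [ih]

theorem lastEnd_retrW (a : Ept κ) (W : List (Block Γ κ)) :
    lastEnd a (retrW Γ₀ W) = lastEnd a W := by
  induction W generalizing a with
  | nil => rfl
  | cons b t ih =>
    simp only [retrW, List.map_cons, lastEnd] at ih ⊢
    exact ih _

theorem recs_retrW (a : Ept κ) (W : List (Block Γ κ)) :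
    recs a (retrW Γ₀ W) = (recs a W).map (retrRec Γ₀) := by
  induction W generalizing a with
  | nil => rfl
  | cons b t ih =>
    simp only [retrW, List.map_cons, recs] at ih ⊢
    congr 1
    exact ih _

theorem useRecs_retr (W : ι → List (Block Γ κ)) (u : Use Γ κ ι) :
    useRecs (fun i => retrW Γ₀ (W i)) (retrUse Γ₀ u) = (useRecs W u).map (retrRec Γ₀) := by
  simp only [useRecs, retrUse, lastEnd_retrW, recs_retrW, List.map_append, List.map_cons]
  rfl

theorem allRecs_retr (W : ι → List (Block Γ κ)) (uses : List (Use Γ κ ι)) :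
    allRecs (fun i => retrW Γ₀ (W i)) (uses.map (retrUse Γ₀)) =
      (allRecs W uses).map (retrRec Γ₀) := by
  induction uses with
  | nil => rfl
  | cons u t ih =>
    simp only [allRecs, List.map_cons, List.flatMap_cons, List.map_append] at ih ⊢
    rw [ih, useRecs_retr]

theorem allBlocks_retr (W : ι → List (Block Γ κ)) (uses : List (Use Γ κ ι)) :
    (allBlocks (fun i => retrW Γ₀ (W i)) (uses.map (retrUse Γ₀))).map (fun b => b.2) =
      (allBlocks W uses).map (fun b => b.2) := by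
  induction uses with
  | nil => rfl
  | cons u t ih =>
    simp only [allBlocks, List.map_cons, List.flatMap_cons, List.map_append] at ih ⊢
    rw [ih]
    simp [retrUse, retrW_shape]

theorem restrict_mu (W : ι → List (Block Γ κ)) (uses : List (Use Γ κ ι)) :
    mu (fun i => retrW Γ₀ (W i)) (uses.map (retrUse Γ₀)) ≤ mu W uses := by
  unfold mu
  have h1 : (allBlocks (fun i => retrW Γ₀ (W i)) (uses.map (retrUse Γ₀))).map (fun b => b.2.1) =
      (allBlocks W uses).map (fun b => b.2.1) := by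
    have h := congrArg (List.map (fun x : κ × Bool => x.1)) (allBlocks_retr Γ₀ W uses)
    rw [List.map_map, List.map_map] at h
    exact h
  rw [h1, allRecs_retr]
  apply muL_le_of_ntCount_le
  · simp
  · apply ntCount_map_le
    intro r _ hr1
    simp only [retrRec, hr1]
    exact retr_one Γ₀

theorem restrict_tight (W : ι → List (Block Γ κ)) (uses : List (Use Γ κ ι))
    (hT : TightL (allRecs W uses)) :
    TightL (allRecs (fun i => retrW Γ₀ (W i)) (uses.map (retrUse Γ₀))) := by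
  rw [allRecs_retr]
  intro r₀ hr₀ hne
  obtain ⟨r, hr, rfl⟩ := List.mem_map.mp hr₀
  have hne' : r.2.2 ≠ 1 := by
    intro h1
    apply hne
    simp only [retrRec, h1]
    exact retr_one Γ₀
  have h2 := hT r hr hne'
  refine Relation.EqvGen.mono ?_ _ _ h2
  intro a b hab
  refine List.mem_map.mpr ⟨(a, b, 1), hab, ?_⟩
  simp only [retrRec]
  rw [retr_one]

end Restrict

end Vale.Agent.Lib.P174
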