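import Mathlib
import Vale.Agent.Lib.P174.Words
import Vale.Agent.Lib.P174.Records
import Vale.Agent.Lib.P174.Wreath
import Vale.Agent.Lib.P174.Lift

namespace Vale.Agent.Lib.P174

open Monoid

universe u

section Separation

variable {Γ : Type u} [Group Γ] {Q : Type} [CommGroup Q] (ψ : Γ →* Q) (s : Q → Γ)
  (hs : ∀ (g : Γ) (q : Q), ψ (s (ψ g * q)) = ψ g * ψ (s q)) {κ ι : Type} (v : κ → Q)

/-- The projection of a lifted end. -/
def projEnd (x : Ept (κ × Q)) : Ept κ := x.map fun y => (y.1.1, y.2)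

/-- The level of a lifted end. -/
def lev : Ept (κ × Q) → Q
  | none => 1
  | some ((j, q), true) => (v j)⁻¹ * q
  | some ((_, q), false) => q

theorem projEnd_inEnd (p : Q) (b : Block Γ κ) :
    projEnd (inEnd (liftBlock ψ s hs v p b)) = inEnd b := rfl

theorem projEnd_outEnd (p : Q) (b : Block Γ κ) :
    projEnd (outEnd (liftBlock ψ s hs v p b)) = outEnd b := rfl

theorem lev_inEnd (p : Q) (b : Block Γ κ) :
    lev v (inEnd (liftBlock ψ s hs v p b)) = (ψ b.1)⁻¹ * p := by
  obtain ⟨c, j, e⟩ := b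
  cases e
  · simp [inEnd, liftBlock, lev]
  · simp [inEnd, liftBlock, lev]

theorem lev_outEnd (p : Q) (b : Block Γ κ) :
    lev v (outEnd (liftBlock ψ s hs v p b)) = (shift ψ v b)⁻¹ * p := by
  obtain ⟨c, j, e⟩ := b
  cases e
  · simp [outEnd, liftBlock, lev, shift, pw, mul_comm, mul_left_comm]
  · simp [outEnd, liftBlock, lev, shift, pw, mul_comm, mul_left_comm]

theorem lastEnd_lift_proj (a' : Ept (κ × Q)) (p : Q) (W : List (Block Γ κ)) :
    projEnd (lastEnd a' (liftWord ψ s hs v p W)) = lastEnd (projEnd a') W := by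
  induction W generalizing a' p with
  | nil => rfl
  | cons b t ih =>
    simp only [liftWord, lastEnd]
    rw [ih, projEnd_outEnd]

theorem lastEnd_lift_lev (a' : Ept (κ × Q)) (p : Q) (W : List (Block Γ κ))
    (ha : lev v a' = p) :
    lev v (lastEnd a' (liftWord ψ s hs v p W)) = (wShift ψ v W)⁻¹ * p := by
  induction W generalizing a' p with
  | nil => simp [liftWord, lastEnd, ha]
  | cons b t ih =>
    simp only [liftWord, lastEnd]
    rw [ih _ _ (lev_outEnd ψ s hs v p b), wShift_cons, mul_inv_rev, mul_assoc]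

theorem lastEnd_lift_lev' (a' : Ept (κ × Q)) (p : Q) {W : List (Block Γ κ)} (hW : W ≠ []) :
    lev v (lastEnd a' (liftWord ψ s hs v p W)) = (wShift ψ v W)⁻¹ * p := by
  cases W with
  | nil => exact absurd rfl hW
  | cons b t =>
    simp only [liftWord, lastEnd]
    rw [lastEnd_lift_lev ψ s hs v _ _ t (lev_outEnd ψ s hs v p b), wShift_cons, mul_inv_rev,
      mul_assoc]

theorem recs_lift (W : List (Block Γ κ)) (p : Q) (a' : Ept (κ × Q)) (ha : lev v a' = p) :
    ∀ r ∈ recs (projEnd a') W, ∃ r' ∈ recs a' (liftWord ψ s hs v p W),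
      projEnd r'.1 = r.1 ∧ projEnd r'.2.1 = r.2.1 ∧ lev v r'.2.1 = (ψ r.2.2)⁻¹ * lev v r'.1 := by
  induction W generalizing a' p with
  | nil => intro r hr; cases hr
  | cons b t ih =>
    intro r hr
    simp only [recs, List.mem_cons] at hr
    rcases hr with rfl | hr
    · refine ⟨(a', inEnd (liftBlock ψ s hs v p b), (kk ψ s hs b.1).left p), ?_, rfl, rfl, ?_⟩
      · simp [liftWord, recs, liftBlock]
      · simp only
        rw [lev_inEnd, ha]
    · have hr' : r ∈ recs (projEnd (outEnd (liftBlock ψ s hs v p b))) t := by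
        rw [projEnd_outEnd]
        exact hr
      obtain ⟨r', hr'1, hr'2⟩ := ih _ _ (lev_outEnd ψ s hs v p b) r hr'
      refine ⟨r', ?_, hr'2⟩
      simp only [liftWord, recs, List.mem_cons]
      exact Or.inr hr'1

theorem useRecs_lift (W : ι → List (Block Γ κ)) (u : Use Γ κ ι) (hne : W u.i ≠ [])
    (hsh : wShift ψ v (W u.i) = 1) :
    ∀ r ∈ useRecs W u, ∃ r' ∈ useRecs (liftFam ψ s hs v W) (liftUse ψ s hs v u),
      projEnd r'.1 = r.1 ∧ projEnd r'.2.1 = r.2.1 ∧ lev v r'.2.1 = (ψ r.2.2)⁻¹ * lev v r'.1 := by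
  have F1 : projEnd (lastEnd none (liftWord ψ s hs v 1 u.U)) = lastEnd none u.U :=
    lastEnd_lift_proj ψ s hs v none 1 u.U
  have F2 : lev v (lastEnd none (liftWord ψ s hs v 1 u.U)) = (wShift ψ v u.U)⁻¹ := by
    rw [lastEnd_lift_lev ψ s hs v none 1 u.U rfl, mul_one]
  have F3 : ∀ q : Q, projEnd (lastEnd none (liftWord ψ s hs v q (W u.i))) =
      lastEnd none (W u.i) := fun q => lastEnd_lift_proj ψ s hs v none q (W u.i)
  have F4 : ∀ q : Q, lev v (lastEnd none (liftWord ψ s hs v q (W u.i))) = q := by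
    intro q
    rw [lastEnd_lift_lev' ψ s hs v none q hne, hsh, inv_one, one_mul]
  intro r hr
  simp only [useRecs, List.mem_append, List.mem_cons] at hr
  rcases hr with hr | rfl | hr
  · obtain ⟨r', hr'1, hr'2⟩ := recs_lift ψ s hs v u.U 1 none rfl r hr
    refine ⟨r', ?_, hr'2⟩
    simp only [useRecs, liftUse, List.mem_append, List.mem_cons]
    exact Or.inl hr'1
  · refine ⟨(lastEnd none (liftWord ψ s hs v 1 u.U),
      lastEnd none (liftWord ψ s hs v ((ψ u.d)⁻¹ * (wShift ψ v u.U)⁻¹) (W u.i)),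
      (kk ψ s hs u.d).left ((wShift ψ v u.U)⁻¹)), ?_, F1, F3 _, ?_⟩
    · simp [useRecs, liftUse, liftFam]
    · simp only
      rw [F4, F2]
  · have hr' : r ∈ recs (projEnd (lastEnd none
        (liftWord ψ s hs v ((ψ u.d)⁻¹ * (wShift ψ v u.U)⁻¹) (W u.i)))) (W u.i) := by
      rw [F3]
      exact hr
    obtain ⟨r', hr'1, hr'2⟩ := recs_lift ψ s hs v (W u.i) _ _ (F4 _) r hr'
    refine ⟨r', ?_, hr'2⟩
    simp only [useRecs, liftUse, liftFam, List.mem_append, List.mem_cons]
    exact Or.inr (Or.inr hr'1)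

theorem allRecs_lift (W : ι → List (Block Γ κ)) (uses : List (Use Γ κ ι))
    (hne : ∀ u ∈ uses, W u.i ≠ []) (hsh : ∀ i, wShift ψ v (W i) = 1) :
    ∀ r ∈ allRecs W uses,
      ∃ r' ∈ allRecs (liftFam ψ s hs v W) (uses.map (liftUse ψ s hs v)),
        projEnd r'.1 = r.1 ∧ projEnd r'.2.1 = r.2.1 ∧
          lev v r'.2.1 = (ψ r.2.2)⁻¹ * lev v r'.1 := by
  intro r hr
  simp only [allRecs, List.mem_flatMap] at hr
  obtain ⟨u, hu, hr⟩ := hr
  obtain ⟨r', hr'1, hr'2⟩ := useRecs_lift ψ s hs v W u (hne u hu) (hsh u.i) r hr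
  refine ⟨r', ?_, hr'2⟩
  simp only [allRecs, List.mem_flatMap, List.mem_map]
  exact ⟨_, ⟨u, hu, rfl⟩, hr'1⟩

/-- Separation: if the certificate is tight and no unknown of the lifted certificate occurs at
two different levels, then the homomorphism is trivial on every syllable. -/
theorem separation (W : ι → List (Block Γ κ)) (uses : List (Use Γ κ ι))
    (hT : TightL (allRecs W uses))
    (hne : ∀ u ∈ uses, W u.i ≠ []) (hsh : ∀ i, wShift ψ v (W i) = 1)
    (hinj : Set.InjOn Prod.fst {x : κ × Q | ∃ b ∈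
      allBlocks (liftFam ψ s hs v W) (uses.map (liftUse ψ s hs v)), b.2.1 = x}) :
    ∀ r ∈ allRecs W uses, ψ r.2.2 = 1 := by
  classical
  let vs' : Set (κ × Q) := {x : κ × Q | ∃ b ∈
      allBlocks (liftFam ψ s hs v W) (uses.map (liftUse ψ s hs v)), b.2.1 = x}
  have hE := allRecs_endIn (liftFam ψ s hs v W) (uses.map (liftUse ψ s hs v))
  have huniq : ∀ x y : Ept (κ × Q), EndIn vs' x → EndIn vs' y → projEnd x = projEnd y →
      x = y := by
    intro x y hx hy hxy
    cases x with
    | none =>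
      cases y with
      | none => rfl
      | some y => simp [projEnd] at hxy
    | some x =>
      cases y with
      | none => simp [projEnd] at hxy
      | some y =>
        obtain ⟨⟨j, q⟩, e⟩ := x
        obtain ⟨⟨j2, q2⟩, e2⟩ := y
        simp only [projEnd, Option.map_some, Option.some.injEq, Prod.mk.injEq] at hxy
        obtain ⟨rfl, rfl⟩ := hxy
        have h1 := hx (j, q) e rfl
        have h2 := hy (j, q2) e rfl
        have h3 := hinj h1 h2 rfl
        rw [h3]
  let h : Ept κ → Q := fun a =>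
    if hx : ∃ x : Ept (κ × Q), EndIn vs' x ∧ projEnd x = a then lev v (Classical.choose hx)
    else 1
  have hh : ∀ x : Ept (κ × Q), EndIn vs' x → h (projEnd x) = lev v x := by
    intro x hx
    have hex : ∃ x' : Ept (κ × Q), EndIn vs' x' ∧ projEnd x' = projEnd x := ⟨x, hx, rfl⟩
    simp only [h, dif_pos hex]
    have h1 := Classical.choose_spec hex
    rw [huniq _ _ h1.1 hx h1.2]
  have hrec : ∀ r ∈ allRecs W uses, h r.2.1 = (ψ r.2.2)⁻¹ * h r.1 := by
    intro r hr
    obtain ⟨r', hr', h1, h2, h3⟩ := allRecs_lift ψ s hs v W uses hne hsh r hr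
    rw [← h1, ← h2, hh _ (hE r' hr').1, hh _ (hE r' hr').2, h3]
  have hcl : ∀ a b : Ept κ,
      Relation.EqvGen (fun a b => (a, b, (1 : Γ)) ∈ allRecs W uses) a b → h a = h b := by
    intro a b hab
    induction hab with
    | rel a b hab =>
      have h1 := hrec (a, b, 1) hab
      simp only [map_one, inv_one, one_mul] at h1
      exact h1.symm
    | refl a => rfl
    | symm a b _ ih => exact ih.symm
    | trans a b c _ _ ih1 ih2 => exact ih1.trans ih2
  intro r hr
  by_cases h1 : r.2.2 = 1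
  · rw [h1, map_one]
  · have h2 := hcl _ _ (hT r hr h1)
    have h3 := hrec r hr
    rw [← h2] at h3
    have h4 : (ψ r.2.2)⁻¹ = 1 := by
      have h5 : (ψ r.2.2)⁻¹ * h r.1 = 1 * h r.1 := by rw [one_mul]; exact h3.symm
      exact mul_right_cancel h5
    exact inv_eq_one.mp h4

end Separation

end Vale.Agent.Lib.P174
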