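import Mathlib
import Vale.Agent.Lib.P174.Defs
import Vale.Agent.Lib.P174.LIDef
import Vale.Agent.Lib.P174.Infinite
import Vale.Agent.Lib.P174.Words
import Vale.Agent.Lib.P174.Records
import Vale.Agent.Lib.P174.Gauge
import Vale.Agent.Lib.P174.Restrict
import Vale.Agent.Lib.P174.Wreath
import Vale.Agent.Lib.P174.Lift
import Vale.Agent.Lib.P174.Indep2
import Vale.Agent.Lib.P174.Separation

namespace Vale.Agent.Lib.P174

open Monoid

universe u

theorem image_fst_list {α β : Type} (l : List (α × β)) :
    Prod.fst '' {x | x ∈ l} = {j | j ∈ l.map Prod.fst} := by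
  ext j
  simp

/-- Either a list of pairs has more distinct members than distinct first components, or the
first projection is injective on its members. -/
theorem ncard_lt_or_injOn {α β : Type} (l : List (α × β)) :
    Set.ncard {j | j ∈ l.map Prod.fst} < Set.ncard {x | x ∈ l} ∨
      Set.InjOn Prod.fst {x | x ∈ l} := by
  by_cases h : Set.ncard {j | j ∈ l.map Prod.fst} < Set.ncard {x | x ∈ l}
  · exact Or.inl h
  · right
    have hfin := List.finite_toSet l
    have himg := image_fst_list l
    have h1 := Set.ncard_image_le (f := Prod.fst) hfin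
    rw [himg] at h1
    apply Set.injOn_of_ncard_image_eq _ hfin
    rw [himg]
    omega

/-- The top of the tower: a certificate over a group embedded in a group with the Howie
property certifies only the trivial element. -/
theorem top_contradiction {Γ : Type u} [Group Γ] {N : Type*} [Group N] (hN : HowieProperty N)
    (π₀ : Γ →* N) (hπ₀ : Function.Injective π₀) {κ ι : Type}
    (W : ι → List (Block Γ κ)) (uses : List (Use Γ κ ι)) (g : Γ)
    (hval : (Monoid.Coprod.inl g : Monoid.Coprod Γ (FreeGroup κ)) = cEval W uses)
    (hind : LinearIndependent ℚ fun i => wExp (W i)) : g = 1 := by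
  let F : Monoid.Coprod Γ (FreeGroup κ) →* Monoid.Coprod N (FreeGroup κ) :=
    Monoid.Coprod.map π₀ (MonoidHom.id (FreeGroup κ))
  have hexp : (expF N κ).comp F = expF Γ κ := by
    apply Monoid.Coprod.hom_ext
    · ext c
      simp [F, expF]
    · apply FreeGroup.ext_hom
      intro j
      simp [F, expF]
  let w : ι → Monoid.Coprod N (FreeGroup κ) := fun i => F (wEval (W i))
  have hw : LinearIndependent ℚ fun i => Multiplicative.toAdd (expF N κ (w i)) := by
    have h1 : (fun i => Multiplicative.toAdd (expF N κ (w i))) = fun i => wExp (W i) := by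
      funext i
      have h2 := DFunLike.congr_fun hexp (wEval (W i))
      simp only [MonoidHom.comp_apply] at h2
      simp only [w]
      rw [h2, expF_wEval]
      rfl
    rw [h1]
    exact hind
  have hmem : Monoid.Coprod.inl (π₀ g) ∈ Subgroup.normalClosure (Set.range w) := by
    have h1 : Subgroup.normalClosure (Set.range fun i => wEval (W i)) ≤
        (Subgroup.normalClosure (Set.range w)).comap F := by
      apply Subgroup.normalClosure_le_normal
      rintro _ ⟨i, rfl⟩
      rw [SetLike.mem_coe, Subgroup.mem_comap]
      exact Subgroup.subset_normalClosure ⟨i, rfl⟩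
    have h2 := h1 (cEval_mem W uses)
    rw [← hval, Subgroup.mem_comap] at h2
    simpa [F] using h2
  have h3 := eq_one_of_mem_normalClosure hN w hw (π₀ g) hmem
  apply hπ₀
  rw [h3, map_one]

/-- The tower induction: if every finitely generated subgroup of `G` has the Howie property or
has a nontrivial homomorphism to the integers, then no certificate over a group embedded in `G` certifies
a nontrivial coefficient. -/
theorem tower {G : Type u} [Group G]
    (hyp : ∀ H : Subgroup G, H.FG →
      HowieProperty H ∨ ∃ f : H →* Multiplicative ℤ, f ≠ 1) :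
    ∀ (μ : ℕ) (Γ : Type u) [Group Γ] (π : Γ →* G), Function.Injective π →
      ∀ (ι κ : Type) (W : ι → List (Block Γ κ)) (uses : List (Use Γ κ ι)) (g : Γ),
        g ≠ 1 → (Monoid.Coprod.inl g : Monoid.Coprod Γ (FreeGroup κ)) = cEval W uses →
        LinearIndependent ℚ (fun i => wExp (W i)) → mu W uses ≤ μ → False := by
  intro μ
  induction μ using Nat.strong_induction_on with
  | _ μ ih =>
  intro Γ _ π hπ ι κ W uses g hg hval hind hmu
  by_cases hT : TightL (allRecs W uses)
  swap
  · obtain ⟨W', uses', hval', hexp', hlt⟩ := gauge_move W uses g hval hT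
    have hind' : LinearIndependent ℚ (fun i => wExp (W' i)) := by
      have h : (fun i => wExp (W' i)) = fun i => wExp (W i) := funext hexp'
      rw [h]
      exact hind
    exact ih (mu W' uses') (lt_of_lt_of_le hlt hmu) Γ π hπ ι κ W' uses' g hg hval' hind' le_rfl
  · let S : Set Γ := {c | ∃ r ∈ allRecs W uses, r.2.2 = c} ∪ {g}
    let Γ₀ : Subgroup Γ := Subgroup.closure S
    have hS : ∀ r ∈ allRecs W uses, r.2.2 ∈ Γ₀ :=
      fun r hr => Subgroup.subset_closure (Or.inl ⟨r, hr, rfl⟩)
    have hg₀ : g ∈ Γ₀ := Subgroup.subset_closure (Or.inr rfl)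
    have hval₀ := restrict_valid Γ₀ W uses g hval hS hg₀
    have hind₀ : LinearIndependent ℚ (fun i => wExp (retrW Γ₀ (W i))) := by
      have h : (fun i => wExp (retrW Γ₀ (W i))) = fun i => wExp (W i) :=
        funext fun i => wExp_retrW Γ₀ (W i)
      rw [h]
      exact hind
    have hmu₀ := restrict_mu Γ₀ W uses
    have hT₀ := restrict_tight Γ₀ W uses hT
    have hg₀ne : (⟨g, hg₀⟩ : Γ₀) ≠ 1 := by
      intro h
      exact hg (congrArg Subtype.val h)
    let π₀ : Γ₀ →* G := π.comp Γ₀.subtype
    have hπ₀ : Function.Injective π₀ := hπ.comp Γ₀.subtype_injective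
    have hSfin : S.Finite := by
      apply Set.Finite.union _ (Set.finite_singleton g)
      exact (List.finite_toSet (allRecs W uses)).image (fun r => r.2.2)
    let H : Subgroup G := Γ₀.map π
    have hHfg : H.FG :=
      (Subgroup.fg_iff H).mpr ⟨π '' S, (MonoidHom.map_closure π S).symm, hSfin.image π⟩
    let π₁ : Γ₀ →* H := π.subgroupMap Γ₀
    have hπ₁ : Function.Injective π₁ := by
      intro a b hab
      apply hπ₀
      exact congrArg Subtype.val hab
    rcases hyp H hHfg with hH | ⟨f₁, hf₁⟩
    · exact hg₀ne (top_contradiction hH π₁ hπ₁ _ _ _ hval₀ hind₀)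
    · let ψ₀ : Γ₀ →* Multiplicative ℤ := f₁.comp π₁
      let toRat : Multiplicative ℤ →* Multiplicative ℚ :=
        AddMonoidHom.toMultiplicative (Int.castAddHom ℚ)
      let ψ : Γ₀ →* Multiplicative ℚ := toRat.comp ψ₀
      have hψne : ∃ c : Γ₀, ψ c ≠ 1 := by
        by_contra hall
        push Not at hall
        apply hf₁
        ext x
        obtain ⟨c, rfl⟩ := π.subgroupMap_surjective Γ₀ x
        have h1 := congrArg Multiplicative.toAdd (hall c)
        simp only [ψ, toRat, ψ₀, MonoidHom.comp_apply, AddMonoidHom.toMultiplicative_apply_apply,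
          toAdd_ofAdd, Int.coe_castAddHom, toAdd_one, Int.cast_eq_zero] at h1
        rw [MonoidHom.one_apply]
        exact h1
      obtain ⟨v, hv⟩ := exists_shift_solution ψ (fun i => retrW Γ₀ (W i)) hind₀
      obtain ⟨s, hs⟩ := exists_section ψ
      obtain ⟨hψg, hval'⟩ := lift_valid ψ s hs v _ _ _ hval₀ hv
      have hg' : (kk ψ s hs ⟨g, hg₀⟩).left 1 ≠ 1 :=
        fun h => hg₀ne (kk_eq_one ψ s hs _ hψg h)
      have hind' := lift_indep ψ s hs v (fun i => retrW Γ₀ (W i)) hind₀
      have hne₀ : ∀ u ∈ uses.map (retrUse Γ₀), retrW Γ₀ (W u.i) ≠ [] := by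
        intro u _ h
        have h1 := hind₀.ne_zero u.i
        simp only [h, wExp_nil] at h1
        exact h1 rfl
      have hlt : mu (liftFam ψ s hs v (fun i => retrW Γ₀ (W i)))
          ((uses.map (retrUse Γ₀)).map (liftUse ψ s hs v)) <
          mu (fun i => retrW Γ₀ (W i)) (uses.map (retrUse Γ₀)) := by
        have hmap := allBlocks_lift_vars ψ s hs v (fun i => retrW Γ₀ (W i))
          (uses.map (retrUse Γ₀))
        unfold mu
        apply muL_lt_of_ncard_lt
        · have h1 := congrArg List.length hmap
          simpa using h1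
        · exact allRecs_lift_length ψ s hs v _ _
        · have hmap' : ((allBlocks (liftFam ψ s hs v (fun i => retrW Γ₀ (W i)))
              ((uses.map (retrUse Γ₀)).map (liftUse ψ s hs v))).map (fun b => b.2.1)).map
              Prod.fst =
              (allBlocks (fun i => retrW Γ₀ (W i)) (uses.map (retrUse Γ₀))).map
                (fun b => b.2.1) := by
            rw [List.map_map]
            exact hmap
          rcases ncard_lt_or_injOn ((allBlocks (liftFam ψ s hs v (fun i => retrW Γ₀ (W i)))
              ((uses.map (retrUse Γ₀)).map (liftUse ψ s hs v))).map (fun b => b.2.1))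
            with hlt0 | hinj0
          · rw [hmap'] at hlt0
            exact hlt0
          exfalso
          have hinj : Set.InjOn Prod.fst {x : κ × Multiplicative ℚ | ∃ b ∈
              allBlocks (liftFam ψ s hs v (fun i => retrW Γ₀ (W i)))
                ((uses.map (retrUse Γ₀)).map (liftUse ψ s hs v)), b.2.1 = x} := by
            intro x hx y hy hxy
            apply hinj0 _ _ hxy
            · obtain ⟨b, hb, rfl⟩ := hx
              exact List.mem_map.mpr ⟨b, hb, rfl⟩
            · obtain ⟨b, hb, rfl⟩ := hy
              exact List.mem_map.mpr ⟨b, hb, rfl⟩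
          have hsep := separation ψ s hs v _ _ hT₀ hne₀ hv hinj
          obtain ⟨c, hc⟩ := hψne
          apply hc
          have hker : (⊤ : Subgroup Γ₀) ≤ ψ.ker := by
            rw [← Subgroup.closure_closure_coe_preimage (k := S), Subgroup.closure_le]
            intro x hx
            rcases hx with ⟨r, hr, hrx⟩ | hxg
            · have hr₀ : retrRec Γ₀ r ∈
                  allRecs (fun i => retrW Γ₀ (W i)) (uses.map (retrUse Γ₀)) := by
                rw [allRecs_retr]
                exact List.mem_map_of_mem hr
              have h3 := hsep _ hr₀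
              have h4 : (retrRec Γ₀ r).2.2 = x := by
                apply Subtype.ext
                simp only [retrRec]
                rw [retr_of_mem Γ₀ (hS r hr)]
                exact hrx
              rw [h4] at h3
              exact h3
            · have h3 : x = ⟨g, hg₀⟩ := Subtype.ext hxg
              rw [h3]
              exact hψg
          exact hker (Subgroup.mem_top c)
      exact ih _ (lt_of_lt_of_le hlt (hmu₀.trans hmu)) ψ.ker (π₀.comp ψ.ker.subtype)
        (hπ₀.comp ψ.ker.subtype_injective) (ι × Multiplicative ℚ) (κ × Multiplicative ℚ)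
        _ _ _ hg' hval' hind' le_rfl

end Vale.Agent.Lib.P174
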