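import Mathlib
import Vale.Agent.Lib.P174.Defs
import Vale.Agent.Lib.P174.LIDef
import Vale.Agent.Lib.P174.Infinite
import Vale.Agent.Lib.P174.Words
import Vale.Agent.Lib.P174.Records
import Vale.Agent.Lib.P174.Tower

namespace Vale.Agent.Lib.P174

open Monoid

universe u

/-- The integral exponent sums agree with the rational exponent vector. -/
theorem expSum_eq_expF {G : Type u} [Group G] {n : ℕ}
    (x : Monoid.Coprod G (FreeGroup (Fin n))) (j : Fin n) :
    ((Multiplicative.toAdd (expSum G n x) j : ℤ) : ℚ) =
      Multiplicative.toAdd (expF G (Fin n) x) j := by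
  let h1 : Monoid.Coprod G (FreeGroup (Fin n)) →* Multiplicative (Fin n → ℚ) :=
    (AddMonoidHom.toMultiplicative ((Int.castAddHom ℚ).compLeft (Fin n))).comp (expSum G n)
  let h2 : Monoid.Coprod G (FreeGroup (Fin n)) →* Multiplicative (Fin n → ℚ) :=
    (AddMonoidHom.toMultiplicative
      (Finsupp.coeFnAddHom : (Fin n →₀ ℚ) →+ (Fin n → ℚ))).comp (expF G (Fin n))
  have key : h1 = h2 := by
    apply Monoid.Coprod.hom_ext
    · ext g
      simp [h1, h2, expSum, expF]
    · apply FreeGroup.ext_hom
      intro y
      apply Multiplicative.toAdd.injective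
      funext j'
      simp only [h1, h2, expSum, expF, MonoidHom.comp_apply, Monoid.Coprod.lift_apply_inr,
        FreeGroup.lift_apply_of, AddMonoidHom.toMultiplicative_apply_apply, toAdd_ofAdd,
        AddMonoidHom.compLeft_apply, Function.comp_apply, Int.coe_castAddHom,
        Finsupp.coeFnAddHom_apply]
      by_cases hj : j' = y
      · subst hj
        simp
      · simp [hj]
  have h3 := congrFun (congrArg Multiplicative.toAdd (DFunLike.congr_fun key x)) j
  simpa [h1, h2] using h3

/-- Absorb a coefficient into the first block of a word. -/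
def absorb {Γ : Type u} [Group Γ] {κ : Type} (d : Γ) : List (Block Γ κ) → List (Block Γ κ)
  | [] => []
  | b :: t => (d * b.1, b.2) :: t

theorem wExp_absorb {Γ : Type u} [Group Γ] {κ : Type} (d : Γ) (V : List (Block Γ κ)) :
    wExp (absorb d V) = wExp V := by
  cases V <;> simp [absorb]

theorem inl_mul_wEval_absorb {Γ : Type u} [Group Γ] {κ : Type} (d : Γ) {V : List (Block Γ κ)}
    (hV : V ≠ []) : Monoid.Coprod.inl d * wEval V = wEval (absorb d V) := by
  cases V with
  | nil => exact absurd rfl hV
  | cons b t => exact inl_mul_wEval_cons d b t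

/-- Local criterion: if every finitely generated subgroup of `G` has the Howie property or has
a nontrivial homomorphism to the integers, then `G` has the Howie property. -/
theorem howie_of_local {G : Type u} [Group G]
    (hyp : ∀ H : Subgroup G, H.FG →
      HowieProperty H ∨ ∃ f : H →* Multiplicative ℤ, f ≠ 1) :
    HowieProperty G := by
  intro n m w hw
  have key : ∀ g : G, Monoid.Coprod.inl g ∈ Subgroup.normalClosure (Set.range w) → g = 1 := by
    intro g hgmem
    by_contra hg
    have hex : ∀ i, ∃ (V : List (Block G (Fin n))) (d : G),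
        w i = wEval V * Monoid.Coprod.inl d := fun i => exists_word (w i)
    choose V d hV using hex
    have hexp : ∀ i, Multiplicative.toAdd (expF G (Fin n) (w i)) = wExp (V i) := by
      intro i
      rw [hV i, map_mul, expF_wEval]
      simp [expF]
    have hindV : LinearIndependent ℚ (fun i => wExp (V i)) := by
      apply LinearIndependent.of_comp
        (Finsupp.lcoeFun : (Fin n →₀ ℚ) →ₗ[ℚ] (Fin n → ℚ))
      have h1 : ((Finsupp.lcoeFun : (Fin n →₀ ℚ) →ₗ[ℚ] (Fin n → ℚ)) ∘ fun i => wExp (V i)) =
          fun i : Fin m => fun j : Fin n =>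
            ((Multiplicative.toAdd (expSum G n (w i)) j : ℤ) : ℚ) := by
        funext i j
        rw [expSum_eq_expF, hexp]
        rfl
      rw [h1]
      exact hw
    let W : Fin m → List (Block G (Fin n)) := fun i => absorb (d i) (V i)
    have hW1 : ∀ i, wExp (W i) = wExp (V i) := fun i => wExp_absorb _ _
    have hW2 : ∀ i, Monoid.Coprod.inl (d i) * wEval (V i) = wEval (W i) := by
      intro i
      apply inl_mul_wEval_absorb
      intro h
      have h1 := hindV.ne_zero i
      simp only [h, wExp_nil] at h1
      exact h1 rfl
    have hle : Subgroup.normalClosure (Set.range w) ≤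
        Subgroup.normalClosure (Set.range fun i => wEval (W i)) := by
      apply Subgroup.normalClosure_le_normal
      rintro _ ⟨i, rfl⟩
      have h1 : w i = (Monoid.Coprod.inl (d i))⁻¹ * wEval (W i) *
          ((Monoid.Coprod.inl (d i))⁻¹)⁻¹ := by
        rw [hV i, ← hW2 i]
        group
      have hmem : wEval (W i) ∈ Subgroup.normalClosure (Set.range fun i => wEval (W i)) :=
        Subgroup.subset_normalClosure ⟨i, rfl⟩
      rw [SetLike.mem_coe, h1]
      exact Subgroup.normalClosure_normal.conj_mem _ hmem _
    obtain ⟨uses, huses⟩ := exists_uses W (hle hgmem)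
    have hindW : LinearIndependent ℚ (fun i => wExp (W i)) := by
      rw [funext hW1]
      exact hindV
    exact tower hyp (mu W uses) G (MonoidHom.id G) Function.injective_id (Fin m) (Fin n)
      W uses g hg huses hindW le_rfl
  intro g g' h
  have h1 : Monoid.Coprod.inl (g⁻¹ * g') ∈ Subgroup.normalClosure (Set.range w) := by
    rw [map_mul, map_inv]
    simp only [MonoidHom.comp_apply, QuotientGroup.mk'_apply] at h
    exact QuotientGroup.eq.mp h
  exact inv_mul_eq_one.mp (key _ h1)

/-- The Howie property passes to subgroups (more generally along injective homomorphisms). -/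
theorem howie_of_injective {H : Type*} [Group H] {N : Type*} [Group N] (hN : HowieProperty N)
    (φ : H →* N) (hφ : Function.Injective φ) : HowieProperty H := by
  intro n m w hw
  let F : Monoid.Coprod H (FreeGroup (Fin n)) →* Monoid.Coprod N (FreeGroup (Fin n)) :=
    Monoid.Coprod.map φ (MonoidHom.id (FreeGroup (Fin n)))
  have hexp : (expSum N n).comp F = expSum H n := by
    apply Monoid.Coprod.hom_ext
    · ext c
      simp [F, expSum]
    · apply FreeGroup.ext_hom
      intro j
      simp [F, expSum]
  have hns : Nonsingular (fun i => F (w i)) := by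
    unfold Nonsingular at hw ⊢
    have h1 : (fun i : Fin m => fun j : Fin n =>
        ((Multiplicative.toAdd (expSum N n (F (w i))) j : ℤ) : ℚ)) =
        fun i : Fin m => fun j : Fin n =>
          ((Multiplicative.toAdd (expSum H n (w i)) j : ℤ) : ℚ) := by
      funext i j
      have h2 := DFunLike.congr_fun hexp (w i)
      simp only [MonoidHom.comp_apply] at h2
      rw [h2]
    rw [h1]
    exact hw
  have hsol := hN n m (fun i => F (w i)) hns
  have key : ∀ g : H, Monoid.Coprod.inl g ∈ Subgroup.normalClosure (Set.range w) → g = 1 := by
    intro g hg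
    have h1 : Subgroup.normalClosure (Set.range w) ≤
        (Subgroup.normalClosure (Set.range fun i => F (w i))).comap F := by
      apply Subgroup.normalClosure_le_normal
      rintro _ ⟨i, rfl⟩
      rw [SetLike.mem_coe, Subgroup.mem_comap]
      exact Subgroup.subset_normalClosure ⟨i, rfl⟩
    have h2 := h1 hg
    rw [Subgroup.mem_comap] at h2
    have h3 : F (Monoid.Coprod.inl g) = Monoid.Coprod.inl (φ g) := by
      simp [F]
    rw [h3] at h2
    have h4 : ((QuotientGroup.mk' (Subgroup.normalClosure (Set.range fun i => F (w i)))).comp
        (Monoid.Coprod.inl : N →* Monoid.Coprod N (FreeGroup (Fin n)))) (φ g) =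
        ((QuotientGroup.mk' (Subgroup.normalClosure (Set.range fun i => F (w i)))).comp
        (Monoid.Coprod.inl : N →* Monoid.Coprod N (FreeGroup (Fin n)))) 1 := by
      rw [map_one]
      exact (QuotientGroup.eq_one_iff _).mpr h2
    have h5 := hsol h4
    apply hφ
    rw [h5, map_one]
  intro g g' h
  have h1 : Monoid.Coprod.inl (g⁻¹ * g') ∈ Subgroup.normalClosure (Set.range w) := by
    rw [map_mul, map_inv]
    simp only [MonoidHom.comp_apply, QuotientGroup.mk'_apply] at h
    exact QuotientGroup.eq.mp h
  exact inv_mul_eq_one.mp (key _ h1)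

/-- The class of groups satisfying Howie's conjecture is closed under extensions with locally
indicable quotient. -/
theorem howie_of_locallyIndicable_quotient {G : Type u} [Group G] (N : Subgroup G) [N.Normal]
    (hLI : LocallyIndicable (G ⧸ N)) (hN : HowieProperty N) : HowieProperty G := by
  apply howie_of_local
  intro H hH
  by_cases hle : H ≤ N
  · left
    exact howie_of_injective hN (Subgroup.inclusion hle) (Subgroup.inclusion_injective hle)
  · right
    let f : G →* G ⧸ N := QuotientGroup.mk' N
    have hfg : (H.map f).FG := by
      obtain ⟨S, hS, hSfin⟩ := (Subgroup.fg_iff H).mp hH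
      refine (Subgroup.fg_iff _).mpr ⟨f '' S, ?_, hSfin.image f⟩
      rw [← hS, MonoidHom.map_closure]
    have hne : H.map f ≠ ⊥ := by
      intro hbot
      apply hle
      intro x hx
      have h1 : f x ∈ H.map f := Subgroup.mem_map_of_mem f hx
      rw [hbot, Subgroup.mem_bot] at h1
      exact (QuotientGroup.eq_one_iff _).mp h1
    obtain ⟨f₁, hf₁⟩ := hLI (H.map f) hfg hne
    refine ⟨f₁.comp (f.subgroupMap H), ?_⟩
    intro h1
    obtain ⟨x, hx⟩ := (hf₁.comp (f.subgroupMap_surjective H)) (Multiplicative.ofAdd 1)
    have h2 := DFunLike.congr_fun h1 x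
    simp only [MonoidHom.comp_apply, MonoidHom.one_apply] at h2
    simp only [Function.comp_apply] at hx
    rw [h2] at hx
    have h3 := congrArg Multiplicative.toAdd hx
    simp at h3

/-- Local criterion, second form: the Howie property for `G` follows from the Howie property
for the finitely generated subgroups of `G` that have no nontrivial homomorphism to the
integers. -/
theorem howie_of_local' {G : Type u} [Group G]
    (h : ∀ H : Subgroup G, H.FG → (∀ f : H →* Multiplicative ℤ, f = 1) → HowieProperty H) :
    HowieProperty G := by
  apply howie_of_local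
  intro H hH
  by_cases hex : ∃ f : H →* Multiplicative ℤ, f ≠ 1
  · exact Or.inr hex
  · left
    apply h H hH
    intro f
    by_contra hf
    exact hex ⟨f, hf⟩

/-- Reduction: the Howie property for all groups follows from the Howie property for the
finitely generated groups admitting no nontrivial homomorphism to the integers. -/
theorem howie_reduction
    (h : ∀ (Γ : Type u) [Group Γ], Group.FG Γ →
      (∀ f : Γ →* Multiplicative ℤ, f = 1) → HowieProperty Γ)
    (G : Type u) [Group G] : HowieProperty G := by
  apply howie_of_local'
  intro H hH hf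
  exact h H ((Group.fg_iff_subgroup_fg H).mpr hH) hf

end Vale.Agent.Lib.P174
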