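import Mathlib
import Vale.Agent.Lib.P174.Defs
import Vale.Agent.Lib.P174.LIDef
import Vale.Agent.Lib.P174.Abelian
import Vale.Agent.Lib.P174.Final

namespace Vale.Agent.Lib.P174

open Monoid

universe u

/-- A group with commuting elements satisfies Howie's conjecture. -/
theorem howie_of_comm {G : Type u} [Group G] (hc : ∀ a b : G, a * b = b * a) :
    HowieProperty G := by
  have hinj : Function.Injective (Abelianization.of : G →* Abelianization G) := by
    rw [injective_iff_map_eq_one]
    intro a ha
    have h1 : a ∈ (Abelianization.of : G →* Abelianization G).ker := ha
    rw [Abelianization.ker_of] at h1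
    have h2 : commutator G = ⊥ := by
      rw [commutator_def, Subgroup.commutator_eq_bot_iff_le_centralizer]
      intro x _
      rw [Subgroup.mem_centralizer_iff]
      intro y _
      exact hc y x
    rw [h2, Subgroup.mem_bot] at h1
    exact h1
  exact howie_of_injective (howie_of_commGroup (Abelianization G)) Abelianization.of hinj

/-- Howie's conjecture holds for every group that is an extension of a commutative normal
subgroup by a locally indicable group. -/
theorem howie_of_abelian_by_locallyIndicable {G : Type u} [Group G] (A : Subgroup G) [A.Normal]
    (hA : ∀ a ∈ A, ∀ b ∈ A, a * b = b * a) (hQ : LocallyIndicable (G ⧸ A)) :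
    HowieProperty G := by
  apply howie_of_locallyIndicable_quotient A hQ
  apply howie_of_comm
  intro a b
  exact Subtype.ext (hA a a.2 b b.2)

end Vale.Agent.Lib.P174
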