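import Mathlib
import Vale.Agent.Lib.P174.Defs
import Vale.Agent.Lib.P174.Infinite
import Vale.Agent.Lib.P174.Indep
import Vale.Agent.Lib.P174.Wreath
import Vale.Agent.Lib.P174.Solve

namespace Vale.Agent.Lib.P174

open Monoid Matrix

universe u v

section Construction

variable {G : Type u} [Group G] {Q : Type v} [CommGroup Q] (ψ : G →* Q) (s : Q → G)
  (hs : ∀ (g : G) (q : Q), ψ (s (ψ g * q)) = ψ g * ψ (s q)) (n : ℕ) (v : Fin n → Q)

/-- The universal lift of the system to the wreath product with universal fibre group. -/
noncomputable def thetaHat :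
    Monoid.Coprod G (FreeGroup (Fin n)) →*
      RegularWreathProduct (Monoid.Coprod ψ.ker (FreeGroup (Fin n × Q))) Q :=
  Monoid.Coprod.lift ((wrMap Monoid.Coprod.inl).comp (kk ψ s hs))
    (FreeGroup.lift fun j => ⟨fun q => Monoid.Coprod.inr (FreeGroup.of (j, q)), v j⟩)

theorem thetaHat_right (x : Monoid.Coprod G (FreeGroup (Fin n))) :
    (thetaHat ψ s hs n v x).right = Monoid.Coprod.lift ψ (FreeGroup.lift v) x := by
  have h : (RegularWreathProduct.rightHom).comp (thetaHat ψ s hs n v) =
      Monoid.Coprod.lift ψ (FreeGroup.lift v) := by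
    apply Monoid.Coprod.hom_ext
    · ext g
      simp [thetaHat]
    · apply FreeGroup.ext_hom
      intro j
      simp [thetaHat]
  exact DFunLike.congr_fun h x

theorem thetaHat_inl (g : G) :
    thetaHat ψ s hs n v (Monoid.Coprod.inl g) = wrMap Monoid.Coprod.inl (kk ψ s hs g) := by
  simp [thetaHat]

/-- Generators of the free module over the group algebra. -/
noncomputable def gen (p : Fin n × Q) : Fin n → MonoidAlgebra ℚ Q :=
  Pi.single p.1 (MonoidAlgebra.of ℚ Q p.2)

/-- Exponent-sum homomorphism of the universal fibre group, valued in the free module over the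
group algebra. -/
noncomputable def expM :
    Monoid.Coprod ψ.ker (FreeGroup (Fin n × Q)) →*
      Multiplicative (Fin n → MonoidAlgebra ℚ Q) :=
  Monoid.Coprod.lift 1 (FreeGroup.lift fun p => Multiplicative.ofAdd (gen n p))

theorem linComb_expF (x : Monoid.Coprod ψ.ker (FreeGroup (Fin n × Q))) :
    Finsupp.linearCombination ℚ (gen (Q := Q) n)
      (Multiplicative.toAdd (expF ψ.ker (Fin n × Q) x)) = Multiplicative.toAdd (expM ψ n x) := by
  have h : (AddMonoidHom.toMultiplicative
      (Finsupp.linearCombination ℚ (gen (Q := Q) n)).toAddMonoidHom).comp (expF ψ.ker (Fin n × Q))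
      = expM ψ n := by
    apply Monoid.Coprod.hom_ext
    · ext g
      simp [expF, expM]
    · apply FreeGroup.ext_hom
      intro p
      apply Multiplicative.toAdd.injective
      simp [expF, expM]
  have h1 := congrArg Multiplicative.toAdd (DFunLike.congr_fun h x)
  simpa using h1

/-- Cast of exponent vectors from integers to rationals. -/
def castHom : Multiplicative (Fin n → ℤ) →* Multiplicative (Fin n → ℚ) :=
  AddMonoidHom.toMultiplicative ((Int.castAddHom ℚ).compLeft (Fin n))

/-- The subgroup of equivariant elements with prescribed augmentation. -/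
def SS : Subgroup (RegularWreathProduct (Multiplicative (Fin n → MonoidAlgebra ℚ Q)) Q ×
    Multiplicative (Fin n → ℚ)) where
  carrier := {p | (∀ q, Multiplicative.toAdd (p.1.left q) =
      MonoidAlgebra.of ℚ Q q • Multiplicative.toAdd (p.1.left 1)) ∧
      (fun j => aug Q (Multiplicative.toAdd (p.1.left 1) j)) = Multiplicative.toAdd p.2}
  one_mem' := by
    constructor
    · intro q
      simp
    · funext j
      simp
  mul_mem' := by
    rintro a b ⟨ha1, ha2⟩ ⟨hb1, hb2⟩
    constructor
    · intro q
      simp only [Prod.fst_mul, RegularWreathProduct.mul_left, Pi.mul_apply, toAdd_mul, mul_one]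
      rw [ha1 q, hb1 (a.1.right⁻¹ * q), hb1 (a.1.right⁻¹), smul_add, smul_smul, map_mul,
        mul_comm (MonoidAlgebra.of ℚ Q q)]
    · funext j
      simp only [Prod.fst_mul, RegularWreathProduct.mul_left, Pi.mul_apply, toAdd_mul, mul_one,
        Pi.add_apply, map_add, Prod.snd_mul]
      rw [hb1 (a.1.right⁻¹), ← ha2, ← hb2]
      simp [aug_single]
  inv_mem' := by
    rintro a ⟨ha1, ha2⟩
    constructor
    · intro q
      simp only [Prod.fst_inv, RegularWreathProduct.inv_left, Pi.inv_apply, toAdd_inv, mul_one]
      rw [ha1 (a.1.right * q), ha1 (a.1.right), smul_neg, smul_smul, map_mul,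
        mul_comm (MonoidAlgebra.of ℚ Q q)]
    · funext j
      simp only [Prod.fst_inv, RegularWreathProduct.inv_left, Pi.inv_apply, toAdd_inv, mul_one,
        Pi.neg_apply, map_neg, Prod.snd_inv]
      rw [ha1 (a.1.right), ← ha2]
      simp [aug_single]

theorem mem_SS (x : Monoid.Coprod G (FreeGroup (Fin n))) :
    (((wrMap (expM ψ n)).comp (thetaHat ψ s hs n v)).prod
      ((castHom n).comp (expSum G n))) x ∈ SS (Q := Q) n := by
  induction x using Monoid.Coprod.induction_on with
  | inl g =>
    constructor
    · intro q
      simp [thetaHat, expM]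
    · funext j
      simp [thetaHat, expM, expSum, castHom]
  | inr f =>
    induction f using FreeGroup.induction_on with
    | C1 =>
      rw [map_one, map_one]
      exact Subgroup.one_mem _
    | of j =>
      constructor
      · intro q
        simp only [thetaHat, expM, MonoidHom.prod_apply, MonoidHom.comp_apply,
          Monoid.Coprod.lift_apply_inr, FreeGroup.lift_apply_of, wrMap_left, toAdd_ofAdd, gen]
        funext j'
        by_cases hj : j' = j
        · subst hj
          simp
        · simp [Pi.single_eq_of_ne hj]
      · funext j'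
        simp only [thetaHat, expM, MonoidHom.prod_apply, MonoidHom.comp_apply,
          Monoid.Coprod.lift_apply_inr, FreeGroup.lift_apply_of, wrMap_left, toAdd_ofAdd, gen,
          expSum, castHom]
        by_cases hj : j' = j
        · subst hj
          simp [aug_single]
        · simp [Pi.single_eq_of_ne hj]
    | inv_of j ih =>
      rw [map_inv, map_inv]
      exact Subgroup.inv_mem _ ih
    | mul a b iha ihb =>
      rw [map_mul, map_mul]
      exact Subgroup.mul_mem _ iha ihb
  | mul a b iha ihb =>
    rw [map_mul]
    exact Subgroup.mul_mem _ iha ihb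

end Construction

section Final

variable {G : Type u} [Group G] {Q : Type v} [CommGroup Q] (ψ : G →* Q)

/-- If the kernel of `ψ : G → Q` has the Howie property, `Q` is a commutative group whose rational
group algebra has no zero divisors, and the image system has a solution in `Q`, then the system
is solvable over `G`. -/
theorem solvable_of_solution [NoZeroDivisors (MonoidAlgebra ℚ Q)] (hN : HowieProperty ψ.ker)
    {n m : ℕ} (w : Fin m → Monoid.Coprod G (FreeGroup (Fin n))) (hw : Nonsingular w)
    (v : Fin n → Q) (hv : ∀ i, Monoid.Coprod.lift ψ (FreeGroup.lift v) (w i) = 1) :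
    SolvableOver w := by
  classical
  obtain ⟨s, hs⟩ := exists_section ψ
  let A : Matrix (Fin m) (Fin n) ℚ := fun i j =>
    ((Multiplicative.toAdd (expSum G n (w i)) j : ℤ) : ℚ)
  obtain ⟨B, hB⟩ := exists_right_inverse A hw
  let T := thetaHat ψ s hs n v
  let ρ : Fin m × Q → Monoid.Coprod ψ.ker (FreeGroup (Fin n × Q)) :=
    fun p => (T (w p.1)).left p.2
  let R := Subgroup.normalClosure (Set.range ρ)
  let Θ := (wrMap (Q := Q) (QuotientGroup.mk' R)).comp T
  have hΘ : ∀ i, Θ (w i) = 1 := by
    intro i
    ext q
    · simp only [Θ, MonoidHom.comp_apply, wrMap_left, RegularWreathProduct.one_left,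
        Pi.one_apply]
      rw [QuotientGroup.mk'_apply, QuotientGroup.eq_one_iff]
      exact Subgroup.subset_normalClosure ⟨(i, q), rfl⟩
    · simp only [Θ, MonoidHom.comp_apply, wrMap_right, RegularWreathProduct.one_right]
      rw [thetaHat_right]
      exact hv i
  have hker : Subgroup.normalClosure (Set.range w) ≤ Θ.ker := by
    apply Subgroup.normalClosure_le_normal
    rintro _ ⟨i, rfl⟩
    exact hΘ i
  let J : Matrix (Fin m) (Fin n) (MonoidAlgebra ℚ Q) :=
    fun i => Multiplicative.toAdd (expM ψ n ((T (w i)).left 1))
  have hmem := fun i => mem_SS ψ s hs n v (w i)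
  have hJ : ∀ i j, aug Q (J i j) = A i j := by
    intro i j
    have h1 := congrFun (hmem i).2 j
    exact h1
  have hE : ∀ p : Fin m × Q,
      Multiplicative.toAdd (expM ψ n (ρ p)) = MonoidAlgebra.of ℚ Q p.2 • J p.1 := by
    intro p
    exact (hmem p.1).1 p.2
  have hind : LinearIndependent ℚ
      fun p => Multiplicative.toAdd (expF ψ.ker (Fin n × Q) (ρ p)) := by
    apply LinearIndependent.of_comp (Finsupp.linearCombination ℚ (gen (Q := Q) n))
    have h1 : (Finsupp.linearCombination ℚ (gen (Q := Q) n)) ∘
        (fun p => Multiplicative.toAdd (expF ψ.ker (Fin n × Q) (ρ p))) =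
        fun p : Fin m × Q => MonoidAlgebra.of ℚ Q p.2 • J p.1 := by
      funext p
      simp only [Function.comp_apply]
      rw [linComb_expF, hE]
    rw [h1]
    exact linearIndependent_translates J A B hJ hB
  have key : ∀ g : G, Monoid.Coprod.inl g ∈ Subgroup.normalClosure (Set.range w) → g = 1 := by
    intro g hg
    have h1 : Θ (Monoid.Coprod.inl g) = 1 := hker hg
    have h2 : ψ g = 1 := by
      have h3 := congrArg RegularWreathProduct.right h1
      simpa [Θ, T, thetaHat_inl] using h3
    have h3 : (kk ψ s hs g).left 1 = 1 := by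
      have h4 := congrFun (congrArg RegularWreathProduct.left h1) 1
      simp only [Θ, T, MonoidHom.comp_apply, thetaHat_inl, wrMap_left,
        RegularWreathProduct.one_left, Pi.one_apply] at h4
      rw [QuotientGroup.mk'_apply, QuotientGroup.eq_one_iff] at h4
      exact eq_one_of_mem_normalClosure hN ρ hind _ h4
    exact kk_eq_one ψ s hs g h2 h3
  intro g g' h
  have h1 : Monoid.Coprod.inl (g⁻¹ * g') ∈ Subgroup.normalClosure (Set.range w) := by
    rw [map_mul, map_inv]
    simp only [MonoidHom.comp_apply, QuotientGroup.mk'_apply] at h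
    exact QuotientGroup.eq.mp h
  exact inv_mul_eq_one.mp (key _ h1)

end Final

/-- The Howie property passes from the kernel of a homomorphism to the additive group of a
rational vector space to the whole group. -/
theorem howie_of_ker {G : Type u} [Group G] {V : Type v} [AddCommGroup V] [Module ℚ V]
    (ψ : G →* Multiplicative V) (hN : HowieProperty ψ.ker) : HowieProperty G := by
  intro n m w hw
  obtain ⟨v, hv⟩ := exists_solution ψ w hw
  exact solvable_of_solution ψ hN w hw v hv

end Vale.Agent.Lib.P174
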